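import Vale.Agent.P247.Defs

/-! P247 Alg: linear algebra of the wedge form. alg_neg: if wedge z z >= 0 pick a nontrivial combination of z, b, c with vanishing entries 02, 03
(two equations, three unknowns); its square is 0, so it is a multiple of z; same with the entries 12, 13. Projections use Cramer for the Gram matrix of b, c.
alg_fwd: a' = projection of a, z = a23 xi - xi23 a' has z23 = 0 and is orthogonal to b, c. alg_back: test with xi = e0 wedge e1 and with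
xi = a' - (wedge a' a' / (2 a23)) e0 wedge e1. pos2_iff: both sides say that the discriminant (wedge b c)^2 - wedge b b * wedge c c is negative.
Helper names end with _Alg. -/

namespace Vale.Agent.P247

open MeasureTheory Set Filter Topology
open scoped ContDiff

noncomputable section

variable {a b c ξ : M2} {L k κ R : ℝ}

theorem wedge_comm (a b : M2) : wedge a b = wedge b a := by
  unfold wedge
  ring
theorem wedge_add (a b c : M2) : wedge a (b + c) = wedge a b + wedge a c := by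
  simp only [wedge, Pi.add_apply]
  ring
theorem wedge_smul (t : ℝ) (a b : M2) : wedge a (t • b) = t * wedge a b := by
  simp only [wedge, Pi.smul_apply, smul_eq_mul]
  ring
theorem continuous_wedge : Continuous fun p : M2 × M2 => wedge p.1 p.2 := by
  unfold wedge
  fun_prop
theorem two_Alg (b c : M2) (q r : ℝ) : wedge (q • b + r • c) (q • b + r • c) =
    q ^ 2 * wedge b b + 2 * q * r * wedge b c + r ^ 2 * wedge c c := by
  simp only [wedge, Pi.add_apply, Pi.smul_apply, smul_eq_mul]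
  ring

theorem three_Alg (a b c : M2) (p q r : ℝ) :
    wedge (p • a + q • b + r • c) (p • a + q • b + r • c) = p ^ 2 * wedge a a +
      2 * p * q * wedge a b + 2 * p * r * wedge a c + wedge (q • b + r • c) (q • b + r • c) := by
  simp only [wedge, Pi.add_apply, Pi.smul_apply, smul_eq_mul]
  ring

theorem ker_Alg (u1 u2 u3 v1 v2 v3 : ℝ) : ∃ p q r : ℝ, (p ≠ 0 ∨ q ≠ 0 ∨ r ≠ 0) ∧
    p * u1 + q * u2 + r * u3 = 0 ∧ p * v1 + q * v2 + r * v3 = 0 := by
  by_cases h : u1 * v2 - u2 * v1 = 0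
  · by_cases h1 : u1 = 0
    · by_cases h2 : v1 = 0
      · exact ⟨1, 0, 0, Or.inl one_ne_zero, by simp [h1], by simp [h2]⟩
      · exact ⟨-v2, v1, 0, Or.inr (Or.inl h2), by linarith, by ring⟩
    · exact ⟨-u2, u1, 0, Or.inr (Or.inl h1), by ring, by linarith⟩
  · exact ⟨u2 * v3 - u3 * v2, u3 * v1 - u1 * v3, _, Or.inr (Or.inr h), by ring, by ring⟩

theorem nonneg_Alg (h : Pos2 b c) (q r : ℝ) : 0 ≤ wedge (q • b + r • c) (q • b + r • c) := by
  by_cases h1 : q ≠ 0 ∨ r ≠ 0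
  · exact (h q r h1).le
  · rw [not_or, not_not, not_not] at h1
    rw [two_Alg, h1.1, h1.2]
    simp

theorem gram_Alg (h : Pos2 b c) : 0 < wedge b b ∧ 0 < wedge b b * wedge c c - wedge b c ^ 2 := by
  have h1 : 0 < wedge b b := by simpa using h 1 0 (Or.inl one_ne_zero)
  have h2 := h (-wedge b c) (wedge b b) (Or.inr h1.ne')
  rw [two_Alg] at h2
  exact ⟨h1, (mul_pos_iff_of_pos_left h1).1 (by linarith)⟩

theorem proj_Alg (h : Pos2 b c) (a : M2) : ∃ s t : ℝ,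
    wedge ((1 : ℝ) • a + s • b + t • c) b = 0 ∧ wedge ((1 : ℝ) • a + s • b + t • c) c = 0 := by
  obtain ⟨d, hd⟩ : ∃ d : ℝ, (wedge b b * wedge c c - wedge b c ^ 2) * d = 1 :=
    ⟨_, mul_inv_cancel₀ (gram_Alg h).2.ne'⟩
  refine ⟨(wedge a c * wedge b c - wedge a b * wedge c c) * d,
    (wedge a b * wedge b c - wedge a c * wedge b b) * d, ?_, ?_⟩
  · rw [wedge_comm, wedge_add, wedge_add, wedge_smul, wedge_smul, wedge_smul, wedge_comm b a]
    linear_combination (-wedge a b) * hd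
  · rw [wedge_comm, wedge_add, wedge_add, wedge_smul, wedge_smul, wedge_smul, wedge_comm c a,
      wedge_comm c b]
    linear_combination (-wedge a c) * hd

theorem mix_Alg (h : mix ξ = 0) : ξ 0 2 = 0 ∧ ξ 0 3 = 0 ∧ ξ 1 2 = 0 ∧ ξ 1 3 = 0 := by
  unfold mix at h
  refine ⟨?_, ?_, ?_, ?_⟩ <;> refine pow_eq_zero_iff two_ne_zero |>.1 ?_ <;>
    nlinarith [sq_nonneg (ξ 0 2), sq_nonneg (ξ 0 3), sq_nonneg (ξ 1 2), sq_nonneg (ξ 1 3)]

theorem mix_nonneg_Alg (ξ : M2) : 0 ≤ mix ξ := by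
  unfold mix
  positivity

theorem zero_Alg (hs : Skew ξ) (h : mix ξ = 0) (h1 : ξ 0 1 = 0) (h2 : ξ 2 3 = 0) : ξ = 0 := by
  obtain ⟨h3, h4, h5, h6⟩ := mix_Alg h
  have h7 : ∀ i, ξ i i = 0 := fun i => by linarith [hs i i]
  funext i j
  fin_cases i <;> fin_cases j <;>
    simp [h1, h2, h3, h4, h5, h6, h7, hs 1 0, hs 2 0, hs 3 0, hs 2 1, hs 3 1, hs 3 2]

theorem Pos3.pos2 (h : Pos3 a b c) : Pos2 b c := by
  intro q r h1
  simpa using h 0 q r (Or.inr h1)
theorem pos3_iff (w : Fin 3 → M2) :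
    (Matrix.of fun i j => wedge (w i) (w j)).PosDef ↔ Pos3 (w 0) (w 1) (w 2) := by
  have e : ∀ x : Fin 3 → ℝ, star x ⬝ᵥ (Matrix.of fun i j => wedge (w i) (w j)).mulVec x =
      wedge (x 0 • w 0 + x 1 • w 1 + x 2 • w 2) (x 0 • w 0 + x 1 • w 1 + x 2 • w 2) := fun x => by
    simp only [dotProduct, Matrix.mulVec, Fin.sum_univ_three, Matrix.of_apply, star_trivial, wedge,
      Pi.add_apply, Pi.smul_apply, smul_eq_mul]
    ring
  rw [Matrix.posDef_iff_dotProduct_mulVec]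
  refine ⟨fun h p q r h1 => ?_, fun h => ⟨?_, fun x hx => ?_⟩⟩
  · have := h.2 (x := ![p, q, r]) fun h2 => by
      have k0 : p = 0 := congrFun h2 0
      have k1 : q = 0 := congrFun h2 1
      have k2 : r = 0 := congrFun h2 2
      simp [k0, k1, k2] at h1
    rwa [e] at this
  · ext i j
    simp [wedge_comm (w j)]
  · rw [e]
    refine h _ _ _ ?_
    by_contra h1
    simp only [not_or, not_not] at h1
    refine hx (funext fun i => ?_)
    fin_cases i
    exacts [h1.1, h1.2.1, h1.2.2]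
theorem alg_neg (h : Pos2 b c) (hb : b 2 3 = 0) (hc : c 2 3 = 0) {ζ : M2} (h0 : ζ 2 3 = 0)
    (h1 : wedge ζ b = 0) (h2 : wedge ζ c = 0) (h3 : mix ζ ≠ 0) : wedge ζ ζ < 0 := by
  by_contra h4
  rw [not_lt] at h4
  have key : ∀ p q r : ℝ, wedge (p • ζ + q • b + r • c) (p • ζ + q • b + r • c) = 0 →
      q = 0 ∧ r = 0 := fun p q r h5 => by
    by_contra h6
    have := h q r (not_and_or.1 h6)
    rw [three_Alg, h1, h2] at h5
    nlinarith [mul_nonneg (sq_nonneg p) h4]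
  have k : ∀ i : Fin 4, (∀ x : M2, x 2 3 = 0 → x i 2 = 0 → x i 3 = 0 → wedge x x = 0) →
      ζ i 2 = 0 ∧ ζ i 3 = 0 := fun i hi => by
    obtain ⟨p, q, r, e1, e2, e3⟩ := ker_Alg (ζ i 2) (b i 2) (c i 2) (ζ i 3) (b i 3) (c i 3)
    obtain ⟨rfl, rfl⟩ := key p q r (hi _ (by simp [h0, hb, hc]) e2 e3)
    simp only [ne_eq, not_true, or_false] at e1
    simp only [zero_mul, add_zero, mul_eq_zero, e1, false_or] at e2 e3
    exact ⟨e2, e3⟩
  obtain ⟨k1, k2⟩ := k 0 fun x e1 e2 e3 => by simp [wedge, e1, e2, e3]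
  obtain ⟨k3, k4⟩ := k 1 fun x e1 e2 e3 => by simp [wedge, e1, e2, e3]
  exact h3 (by simp [mix, k1, k2, k3, k4])
theorem alg_a23 (h : Pos3 a b c) (hb : b 2 3 = 0) (hc : c 2 3 = 0) : a 2 3 ≠ 0 := by
  intro h0
  obtain ⟨p, q, r, e1, e2, e3⟩ := ker_Alg (a 0 2) (b 0 2) (c 0 2) (a 0 3) (b 0 3) (c 0 3)
  have k : ∀ x : M2, x 2 3 = 0 → x 0 2 = 0 → x 0 3 = 0 → wedge x x = 0 := fun x e1 e2 e3 => by
    simp [wedge, e1, e2, e3]
  exact (h p q r e1).ne' (k _ (by simp [h0, hb, hc]) e2 e3)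
theorem nonpos_Alg (h : Pos2 b c) (hb : b 2 3 = 0) (hc : c 2 3 = 0) {ζ : M2} (h0 : ζ 2 3 = 0)
    (h1 : wedge ζ b = 0) (h2 : wedge ζ c = 0) : wedge ζ ζ ≤ 0 := by
  by_cases h3 : mix ζ = 0
  · obtain ⟨k1, k2, -, -⟩ := mix_Alg h3
    simp [wedge, h0, k1, k2]
  · exact (alg_neg h hb hc h0 h1 h2 h3).le

theorem alg_fwd (h : Pos3 a b c) (hb : b 2 3 = 0) (hc : c 2 3 = 0) (ha : 0 < a 2 3) (L : ℝ) :
    Tame L a b c := by
  intro ξ hξ h0
  rcases hξ.hor.eq_or_lt with h1 | h1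
  · have h2 : mix ξ = 0 := by
      by_contra h2
      exact (alg_neg h.pos2 hb hc h1.symm hξ.ob hξ.oc h2).not_ge hξ.sq
    obtain ⟨k1, k2, k3, k4⟩ := mix_Alg h2
    have h3 := hξ.fwd
    rw [← h1, mul_zero, add_zero] at h3
    have h4 := mul_pos (h3.lt_of_ne fun e => h0 (zero_Alg hξ.skew h2 e.symm h1.symm)) ha
    simpa [wedge, k1, k2, k3, k4, ← h1] using h4
  obtain ⟨s, t, e1, e2⟩ := proj_Alg h.pos2 a
  have e3 := h 1 s t (Or.inl one_ne_zero)
  have e4 : wedge ξ ((1 : ℝ) • a + s • b + t • c) = wedge ξ a := by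
    rw [wedge_add, wedge_add, wedge_smul, wedge_smul, wedge_smul, hξ.ob, hξ.oc]
    ring
  have e5 : ((1 : ℝ) • a + s • b + t • c) 2 3 = a 2 3 := by simp [hb, hc]
  generalize (1 : ℝ) • a + s • b + t • c = a' at e1 e2 e3 e4 e5
  have e6 := nonpos_Alg h.pos2 hb hc (ζ := a 2 3 • ξ + (-ξ 2 3) • a') (by simp [e5, mul_comm])
    (by rw [wedge_comm, wedge_add, wedge_smul, wedge_smul, wedge_comm b, wedge_comm b, hξ.ob, e1]
        ring)
    (by rw [wedge_comm, wedge_add, wedge_smul, wedge_smul, wedge_comm c, wedge_comm c, hξ.oc, e2]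
        ring)
  rw [two_Alg, e4] at e6
  refine (mul_pos_iff_of_pos_left (mul_pos ha h1)).1 ?_
  nlinarith [mul_nonneg (sq_nonneg (a 2 3)) hξ.sq, mul_pos (pow_pos h1 2) e3]
theorem Fins.mix_le (h : Fins k κ R b c) (hk : 0 ≤ k) (h0 : 0 ≤ wedge ξ ξ) (h1 : wedge ξ b = 0)
    (h2 : wedge ξ c = 0) : κ * mix ξ ≤ 2 * ξ 2 3 * ξ 0 1 + 2 * k * R ^ 2 * ξ 2 3 ^ 2 := by
  have h3 := h.le (fun i j => if i = 2 ∧ j = 3 then 0 else ξ i j) (by simp)
  have e1 : wedge (fun i j => if i = 2 ∧ j = 3 then 0 else ξ i j) b = -(ξ 2 3 * b 0 1) := by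
    simp [wedge] at h1 ⊢
    linarith
  have e2 : wedge (fun i j => if i = 2 ∧ j = 3 then 0 else ξ i j) c = -(ξ 2 3 * c 0 1) := by
    simp [wedge] at h2 ⊢
    linarith
  have e3 : mix (fun i j => if i = 2 ∧ j = 3 then 0 else ξ i j) = mix ξ := by simp [mix]
  have e4 : wedge (fun i j => if i = 2 ∧ j = 3 then 0 else ξ i j)
      (fun i j => if i = 2 ∧ j = 3 then 0 else ξ i j) = wedge ξ ξ - 2 * ξ 2 3 * ξ 0 1 := by
    simp [wedge]
    ring
  rw [e1, e2, e3, e4] at h3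
  have k1 : b 0 1 ^ 2 ≤ R ^ 2 := sq_le_sq' (abs_le.1 h.bR).1 (abs_le.1 h.bR).2
  have k2 : c 0 1 ^ 2 ≤ R ^ 2 := sq_le_sq' (abs_le.1 h.cR).1 (abs_le.1 h.cR).2
  nlinarith [mul_le_mul_of_nonneg_left (add_le_add k1 k2) (mul_nonneg hk (sq_nonneg (ξ 2 3)))]
def e_Alg : M2 := fun i j => if i = 0 ∧ j = 1 then 1 else if i = 1 ∧ j = 0 then -1 else 0

theorem e_skew_Alg : Skew e_Alg := fun i j => by
  fin_cases i <;> fin_cases j <;> simp [e_Alg]

theorem e_wedge_Alg (a : M2) : wedge e_Alg a = a 2 3 := by simp [wedge, e_Alg]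

theorem e23_Alg : e_Alg 2 3 = 0 := by simp [e_Alg]

theorem e01_Alg : e_Alg 0 1 = 1 := by simp [e_Alg]

theorem alg_back (h : Pos2 b c) (hF : Fins k κ R b c) (hk : 0 ≤ k) (hκ : 0 < κ) (ha : Skew a)
    (hb : Skew b) (hc : Skew c) (ht : Tame (k * R ^ 2) a b c) : Pos3 a b c := by
  have h1 : 0 < a 2 3 := by
    rw [← e_wedge_Alg a]
    refine ht _ ⟨e_skew_Alg, by rw [e_wedge_Alg, e23_Alg], by rw [e_wedge_Alg, hF.b23],
      by rw [e_wedge_Alg, hF.c23], e23_Alg.ge, by simp [e23_Alg, e01_Alg]⟩ fun e => ?_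
    have := e01_Alg
    simp [e] at this
  obtain ⟨s, t, e1, e2⟩ := proj_Alg h a
  have e4 : ∀ ξ, wedge ξ b = 0 → wedge ξ c = 0 →
      wedge ξ ((1 : ℝ) • a + s • b + t • c) = wedge ξ a := fun ξ k1 k2 => by
    rw [wedge_add, wedge_add, wedge_smul, wedge_smul, wedge_smul, k1, k2]
    ring
  have e5 : ((1 : ℝ) • a + s • b + t • c) 2 3 = a 2 3 := by simp [hF.b23, hF.c23]
  have e6 : Skew ((1 : ℝ) • a + s • b + t • c) := fun i j => by
    simp only [Pi.add_apply, Pi.smul_apply, smul_eq_mul, ha i j, hb i j, hc i j]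
    ring
  have e7 : ∀ p q r : ℝ, p • a + q • b + r • c =
      p • ((1 : ℝ) • a + s • b + t • c) + (q - p * s) • b + (r - p * t) • c := fun p q r => by
    module
  generalize (1 : ℝ) • a + s • b + t • c = a' at e1 e2 e4 e5 e6 e7
  have h2 : 0 < wedge a' a' := by
    obtain ⟨l, hl⟩ : ∃ l : ℝ, l * a 2 3 = -(wedge a' a' / 2) :=
      ⟨-(wedge a' a' / 2) / a 2 3, div_mul_cancel₀ _ h1.ne'⟩
    have k0 : ∀ x, wedge ((1 : ℝ) • a' + l • e_Alg) x = wedge a' x + l * x 2 3 := fun x => by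
      rw [wedge_comm, wedge_add, wedge_smul, wedge_smul, wedge_comm x, wedge_comm x, e_wedge_Alg,
        one_mul]
    have k1 : ((1 : ℝ) • a' + l • e_Alg) 2 3 = a 2 3 := by simp [e5, e23_Alg]
    have k2 : wedge ((1 : ℝ) • a' + l • e_Alg) ((1 : ℝ) • a' + l • e_Alg) = 0 := by
      rw [k0, k1, wedge_comm, k0, e5]
      linarith
    have k3 : wedge ((1 : ℝ) • a' + l • e_Alg) b = 0 := by rw [k0, e1, hF.b23]; ring
    have k4 : wedge ((1 : ℝ) • a' + l • e_Alg) c = 0 := by rw [k0, e2, hF.c23]; ring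
    have k5 := hF.mix_le hk k2.ge k3 k4
    have k6 := ht _ ⟨fun i j => by
      simp only [Pi.add_apply, Pi.smul_apply, smul_eq_mul, e6 i j, e_skew_Alg i j]
      ring, k2.ge, k3, k4, k1 ▸ h1.le, nonneg_of_mul_nonneg_right (a := 2 * a 2 3) (by
        rw [k1] at k5 ⊢
        nlinarith [mul_nonneg hκ.le (mix_nonneg_Alg ((1 : ℝ) • a' + l • e_Alg))])
        (by positivity)⟩ fun e => h1.ne' (by rw [← k1, e]; rfl)
    rw [← e4 _ k3 k4, k0, e5] at k6
    linarith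
  intro p q r h3
  rw [e7, three_Alg, e1, e2]
  by_cases hp : p = 0
  · subst hp
    simpa using h q r (h3.resolve_left (not_not.2 rfl))
  · have := mul_pos (sq_pos_of_ne_zero hp) h2
    linarith [nonneg_Alg h (q - p * s) (r - p * t)]
theorem pos2_iff (hb : b 2 3 = 0) (hc : c 2 3 = 0) :
    Pos2 b c ↔ 0 < wedge b b ∧ ∀ u v : ℝ, u ≠ 0 ∨ v ≠ 0 → kap b c u v ≠ 0 := by
  obtain ⟨A, B, C, e1, e2⟩ : ∃ A B C : ℝ, (∀ u v, kap b c u v = A * u ^ 2 + B * u * v + C * v ^ 2) ∧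
      wedge b b * wedge c c - wedge b c ^ 2 = 4 * A * C - B ^ 2 :=
    ⟨b 0 2 * c 0 3 - b 0 3 * c 0 2, b 0 2 * c 1 3 + b 1 2 * c 0 3 - b 0 3 * c 1 2 - b 1 3 * c 0 2,
      b 1 2 * c 1 3 - b 1 3 * c 1 2, fun u v => by unfold kap; ring, by
        simp only [wedge, hb, hc]; ring⟩
  simp only [e1]
  refine ⟨fun h => ⟨(gram_Alg h).1, fun u v h1 h2 => ?_⟩, fun ⟨h1, h2⟩ q r h3 => ?_⟩
  · have h3 := (gram_Alg h).2
    rw [e2] at h3
    rcases h1 with h1 | h1
    · have : (B * u + 2 * C * v) ^ 2 + (4 * A * C - B ^ 2) * u ^ 2 = 0 := by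
        linear_combination 4 * C * h2
      nlinarith [mul_pos h3 (sq_pos_of_ne_zero h1), sq_nonneg (B * u + 2 * C * v)]
    · have : (B * v + 2 * A * u) ^ 2 + (4 * A * C - B ^ 2) * v ^ 2 = 0 := by
        linear_combination 4 * A * h2
      nlinarith [mul_pos h3 (sq_pos_of_ne_zero h1), sq_nonneg (B * v + 2 * A * u)]
  · have h4 : 0 < wedge b b * wedge c c - wedge b c ^ 2 := by
      rw [e2]
      by_contra h4
      have h5 := Real.sq_sqrt (show 0 ≤ B ^ 2 - 4 * A * C by linarith)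
      have h6 : A ≠ 0 := by simpa using h2 1 0 (Or.inl one_ne_zero)
      exact h2 (√(B ^ 2 - 4 * A * C) - B) (2 * A) (Or.inr (mul_ne_zero two_ne_zero h6))
        (by linear_combination A * h5)
    rw [two_Alg]
    refine (mul_pos_iff_of_pos_left h1).1 ?_
    by_cases hr : r = 0
    · have := mul_pos (sq_pos_of_ne_zero (h3.resolve_right (not_not.2 hr))) (mul_pos h1 h1)
      rw [hr]
      linarith
    · nlinarith [mul_pos h4 (sq_pos_of_ne_zero hr), sq_nonneg (q * wedge b b + r * wedge b c)]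
theorem Cone.pos (h : Cone L b c ξ) (hF : Fins k κ R b c) (hk : 0 ≤ k) (hκ : 0 < κ) (h0 : ξ ≠ 0) :
    0 < ξ 2 3 + (ξ 0 1 + L * ξ 2 3) := by
  refine (add_nonneg h.hor h.fwd).lt_of_ne fun e => h0 ?_
  have h1 : ξ 2 3 = 0 := by linarith [h.hor, h.fwd]
  have h2 : ξ 0 1 = 0 := by simpa [h1] using e.symm
  have h3 := hF.mix_le hk h.sq h.ob h.oc
  rw [h1, h2] at h3
  exact zero_Alg h.skew ((mix_nonneg_Alg ξ).antisymm'
    (nonpos_of_mul_nonpos_right (a := κ) (by linarith) hκ)) h2 h1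

end

end Vale.Agent.P247
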