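import Vale.Agent.P247.Poin
import Vale.Agent.P247.Alg

/-! P247 Glue: a smooth family of taming forms. open: the set of bad (t, x, xi) in [0,1] x cube x sphere is compact, so its projection to t is closed.
Finite subcover of [0,1], then exists_contMDiffMap_forall_mem_convex_of_local_const in the space of coefficients (add the two end forms to the family; the
convex set at t asks for the coefficient vector of a0 at t = 0 and of a1 at t = 1, and is everything outside [0,1]). Helper names end with _Glue. -/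

namespace Vale.Agent.P247

open MeasureTheory Set Filter Topology
open scoped ContDiff

noncomputable section

theorem sp_d1_Glue {a : E → Fin 4 → ℝ} (h : IsForm1 a) (i j : Fin 4) : SP fun x => d1 a x i j :=
  ((h.sp j).pd i).sub ((h.sp i).pd j)

theorem smooth_d1_Glue {a : E → Fin 4 → ℝ} (h : IsForm1 a) : ContDiff ℝ ∞ (d1 a) :=
  contDiff_pi.2 fun i => contDiff_pi.2 fun j => (sp_d1_Glue h i j).smooth

theorem per_d1_Glue {a : E → Fin 4 → ℝ} (h : IsForm1 a) : Per (d1 a) := fun x k =>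
  funext fun i => funext fun j => (sp_d1_Glue h i j).per x k

theorem wedge_smul_left_Glue (t : ℝ) (a b : M2) : wedge (t • a) b = t * wedge a b := by
  simp only [wedge, Pi.smul_apply, smul_eq_mul]; ring

theorem cone_smul_Glue {L : ℝ} {b c ξ : M2} (h : Cone L b c ξ) {s : ℝ} (hs : 0 ≤ s) :
    Cone L b c (s • ξ) where
  skew := fun i j => by
    have := h.skew i j
    simp only [Pi.smul_apply, smul_eq_mul]
    rw [this]; ring
  sq := by
    have := h.sq
    have e : wedge (s • ξ) (s • ξ) = s ^ 2 * wedge ξ ξ := by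
      simp only [wedge, Pi.smul_apply, smul_eq_mul]; ring
    rw [e]; positivity
  ob := by rw [wedge_smul_left_Glue, h.ob, mul_zero]
  oc := by rw [wedge_smul_left_Glue, h.oc, mul_zero]
  hor := by
    simp only [Pi.smul_apply, smul_eq_mul]
    exact mul_nonneg hs h.hor
  fwd := by
    have := mul_nonneg hs h.fwd
    simp only [Pi.smul_apply, smul_eq_mul]
    linarith

theorem cont_wedge_Glue {X : Type} [TopologicalSpace X] {f g : X → M2} (hf : Continuous f)
    (hg : Continuous g) : Continuous fun z => wedge (f z) (g z) := by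
  unfold wedge
  fun_prop

theorem closed_cone_Glue {X : Type} [TopologicalSpace X] {f g k : X → M2} (L : ℝ)
    (hf : Continuous f) (hg : Continuous g) (hk : Continuous k) :
    IsClosed {z | Cone L (f z) (g z) (k z)} := by
  have e : {z | Cone L (f z) (g z) (k z)} = (⋂ i, ⋂ j, {z | k z i j = -k z j i}) ∩
      ({z | 0 ≤ wedge (k z) (k z)} ∩ ({z | wedge (k z) (f z) = 0} ∩ ({z | wedge (k z) (g z) = 0} ∩
      ({z | 0 ≤ k z 2 3} ∩ {z | 0 ≤ k z 0 1 + L * k z 2 3})))) := by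
    ext z
    simp only [mem_ofPred_eq, mem_inter_iff, mem_iInter]
    exact ⟨fun h => ⟨h.skew, h.sq, h.ob, h.oc, h.hor, h.fwd⟩,
      fun h => ⟨h.1, h.2.1, h.2.2.1, h.2.2.2.1, h.2.2.2.2.1, h.2.2.2.2.2⟩⟩
  rw [e]
  refine IsClosed.inter (isClosed_iInter fun i => isClosed_iInter fun j =>
    isClosed_eq (by fun_prop) (by fun_prop)) (IsClosed.inter
    (isClosed_le continuous_const (cont_wedge_Glue hk hk)) (IsClosed.inter
    (isClosed_eq (cont_wedge_Glue hk hf) continuous_const) (IsClosed.inter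
    (isClosed_eq (cont_wedge_Glue hk hg) continuous_const) (IsClosed.inter
    (isClosed_le continuous_const (by fun_prop)) (isClosed_le continuous_const (by fun_prop))))))

theorem cont_lin_Glue {b0 b1 : E → M2} (hb0 : IsForm2 b0) (hb1 : IsForm2 b1) :
    Continuous fun z : ℝ × (E × M2) => lin b0 b1 z.1 z.2.1 := by
  have h0 := hb0.smooth.continuous
  have h1 := hb1.smooth.continuous
  unfold lin
  fun_prop

theorem per_lin_Glue {b0 b1 : E → M2} (hb0 : IsForm2 b0) (hb1 : IsForm2 b1) (t : ℝ) :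
    Per (lin b0 b1 t) := fun x k => by
  unfold lin
  rw [hb0.per, hb1.per]

theorem open_Glue {b0 b1 c0 c1 : E → M2} {e : M2} {L : ℝ} (hb0 : IsForm2 b0) (hb1 : IsForm2 b1)
    (hc0 : IsForm2 c0) (hc1 : IsForm2 c1) {a : E → Fin 4 → ℝ} (ha : IsForm1 a) {t0 : ℝ}
    (h : ∀ x, Tame L (e + d1 a x) (lin b0 b1 t0 x) (lin c0 c1 t0 x)) :
    ∀ᶠ t in 𝓝 t0, ∀ x, Tame L (e + d1 a x) (lin b0 b1 t x) (lin c0 c1 t x) := by
  have hK : IsCompact (Icc (0 : E) 1 ×ˢ Metric.sphere (0 : M2) 1) :=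
    isCompact_Icc.prod (isCompact_sphere _ _)
  have hd := (smooth_d1_Glue ha).continuous
  have hcl := closed_cone_Glue (X := ℝ × (E × M2)) (k := fun z => z.2.2) L (cont_lin_Glue hb0 hb1)
    (cont_lin_Glue hc0 hc1) (by fun_prop)
  have hop : IsOpen {z : ℝ × (E × M2) | 0 < wedge z.2.2 (e + d1 a z.2.1)} :=
    isOpen_lt continuous_const (cont_wedge_Glue (by fun_prop) (by fun_prop))
  have key := hK.eventually_forall_of_forall_eventually (x₀ := t0)
    (P := fun t y => Cone L (lin b0 b1 t y.1) (lin c0 c1 t y.1) y.2 → 0 < wedge y.2 (e + d1 a y.1))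
    (fun y hy => by
      by_cases hc : Cone L (lin b0 b1 t0 y.1) (lin c0 c1 t0 y.1) y.2
      · have hne : y.2 ≠ 0 := by
          intro h0
          have := hy.2
          rw [h0] at this
          simp at this
        have hm : (t0, y) ∈ {z : ℝ × (E × M2) | 0 < wedge z.2.2 (e + d1 a z.2.1)} := h y.1 y.2 hc hne
        filter_upwards [hop.mem_nhds hm] with z hz _ using hz
      · have hm : (t0, y) ∈ {z : ℝ × (E × M2) |
            Cone L (lin b0 b1 z.1 z.2.1) (lin c0 c1 z.1 z.2.1) z.2.2}ᶜ := hc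
        filter_upwards [hcl.isOpen_compl.mem_nhds hm] with z hz hz' using absurd hz' hz)
  filter_upwards [key] with t ht x ξ hξ hne
  obtain ⟨k, hk⟩ := exists_cube x
  have hn : 0 < ‖ξ‖ := norm_pos_iff.2 hne
  have hs : ‖ξ‖⁻¹ • ξ ∈ Metric.sphere (0 : M2) 1 := by
    rw [mem_sphere_zero_iff_norm, norm_smul, norm_inv, norm_norm, inv_mul_cancel₀ hn.ne']
  have h1 := ht (x + fun i => (k i : ℝ), ‖ξ‖⁻¹ • ξ) ⟨hk, hs⟩
  simp only [per_lin_Glue hb0 hb1 t x k, per_lin_Glue hc0 hc1 t x k, per_d1_Glue ha x k] at h1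
  have h2 := h1 (cone_smul_Glue hξ (inv_nonneg.2 hn.le))
  rw [wedge_smul_left_Glue] at h2
  exact (pos_iff_pos_of_mul_pos h2).1 (inv_pos.2 hn)

theorem form_sum_Glue {ι : Type} [Fintype ι] {A : ι → E → Fin 4 → ℝ} (hA : ∀ i, IsForm1 (A i))
    (l : ι → ℝ) : IsForm1 fun x => ∑ i, l i • A i x where
  smooth := ContDiff.sum fun i _ => (hA i).smooth.const_smul (l i)
  per := fun x k => Finset.sum_congr rfl fun i _ => by rw [(hA i).per]

theorem d1_sum_Glue {ι : Type} [Fintype ι] {A : ι → E → Fin 4 → ℝ} (hA : ∀ i, IsForm1 (A i))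
    (l : ι → ℝ) (x : E) : d1 (fun x => ∑ i, l i • A i x) x = ∑ i, l i • d1 (A i) x := by
  have key : ∀ p q : Fin 4, pd p (fun y => (∑ i, l i • A i y) q) x =
      ∑ i, l i * pd p (fun y => A i y q) x := by
    intro p q
    have e : (fun y => (∑ i, l i • A i y) q) = fun y => ∑ i, l i * A i y q := by
      funext y
      simp only [Finset.sum_apply, Pi.smul_apply, smul_eq_mul]
    rw [e, pd_sum Finset.univ (fun i _ => (sp_const (l i)).mul ((hA i).sp q))]
    exact Finset.sum_congr rfl fun i _ => pd_cmul ((hA i).sp q) (l i) p x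
  funext p q
  simp only [Finset.sum_apply, Pi.smul_apply, smul_eq_mul, d1, mul_sub, Finset.sum_sub_distrib]
  have k1 := key p q
  have k2 := key q p
  simp only [Finset.sum_apply, Pi.smul_apply, smul_eq_mul] at k1 k2
  rw [k1, k2]

theorem comb_Glue {ι : Type} [Fintype ι] (D : ι → M2) (l m : ι → ℝ) (u v : ℝ) :
    ∑ i, (u • l + v • m) i • D i = u • ∑ i, l i • D i + v • ∑ i, m i • D i := by
  simp only [Pi.add_apply, Pi.smul_apply, smul_eq_mul, add_smul, mul_smul, Finset.sum_add_distrib,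
    Finset.smul_sum]

theorem tame_comb_Glue {L : ℝ} {e p q b c : M2} (hp : Tame L (e + p) b c) (hq : Tame L (e + q) b c)
    {u v : ℝ} (hu : 0 ≤ u) (hv : 0 ≤ v) (huv : u + v = 1) : Tame L (e + (u • p + v • q)) b c := by
  intro ξ hξ hne
  have h1 := hp ξ hξ hne
  have h2 := hq ξ hξ hne
  have e1 : wedge ξ (e + (u • p + v • q)) = u * wedge ξ (e + p) + v * wedge ξ (e + q) := by
    have hv' : v = 1 - u := by linarith
    simp only [wedge, Pi.add_apply, Pi.smul_apply, smul_eq_mul, hv']; ring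
  rw [e1]
  rcases hu.eq_or_lt with h0 | h0
  · have : v = 1 := by linarith
    rw [← h0, this]; linarith
  · have := mul_pos h0 h1
    have := mul_nonneg hv h2.le
    linarith

theorem glue {b0 b1 c0 c1 : E → M2} {e : M2} {L : ℝ} (hb0 : IsForm2 b0) (hb1 : IsForm2 b1)
    (hc0 : IsForm2 c0) (hc1 : IsForm2 c1) {a0 a1 : E → Fin 4 → ℝ} (ha0 : IsForm1 a0)
    (ha1 : IsForm1 a1) (h0 : ∀ x, Tame L (e + d1 a0 x) (b0 x) (c0 x))
    (h1 : ∀ x, Tame L (e + d1 a1 x) (b1 x) (c1 x))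
    (h : ∀ t ∈ Icc (0 : ℝ) 1, ∃ a, IsForm1 a ∧
      ∀ x, Tame L (e + d1 a x) (lin b0 b1 t x) (lin c0 c1 t x)) :
    ∃ β : ℝ → E → Fin 4 → ℝ, (∀ t, IsForm1 (β t)) ∧
      (ContDiff ℝ ∞ fun q : ℝ × E => d1 (β q.1) q.2) ∧ (∀ x, d1 (β 0) x = d1 a0 x) ∧
      (∀ x, d1 (β 1) x = d1 a1 x) ∧
      ∀ t ∈ Icc (0 : ℝ) 1, ∀ x, Tame L (e + d1 (β t) x) (lin b0 b1 t x) (lin c0 c1 t x) := by
  classical
  have l0 : ∀ (b0 b1 : E → M2) x, lin b0 b1 0 x = b0 x := fun b0 b1 x => by simp [lin]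
  have l1 : ∀ (b0 b1 : E → M2) x, lin b0 b1 1 x = b1 x := fun b0 b1 x => by simp [lin]
  let U : {a // IsForm1 a} → Set ℝ := fun a =>
    {t | ∀ x, Tame L (e + d1 a.1 x) (lin b0 b1 t x) (lin c0 c1 t x)}
  have hU : ∀ a, IsOpen (U a) := fun a => isOpen_iff_mem_nhds.2 fun t ht =>
    open_Glue hb0 hb1 hc0 hc1 a.2 ht
  obtain ⟨T, hT⟩ := isCompact_Icc.elim_finite_subcover U hU (s := Icc (0 : ℝ) 1) (fun t ht => by
    obtain ⟨a, ha, hh⟩ := h t ht
    exact mem_iUnion.2 ⟨⟨a, ha⟩, hh⟩)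
  let T' : Finset {a // IsForm1 a} := insert ⟨a0, ha0⟩ (insert ⟨a1, ha1⟩ T)
  let A : T' → E → Fin 4 → ℝ := fun i => i.1.1
  have hA : ∀ i, IsForm1 (A i) := fun i => i.1.2
  let D : (T' → ℝ) → E → M2 := fun l x => ∑ i, l i • d1 (A i) x
  have hD : ∀ (i : T') x, D (Pi.single i 1) x = d1 (A i) x := fun i x => by
    simp only [D]
    rw [Finset.sum_eq_single i]
    · simp
    · intro j _ hj
      simp [Pi.single_eq_of_ne hj]
    · simp
  let C : ℝ → Set (T' → ℝ) := fun t => {l | (t = 0 → ∀ x, D l x = d1 a0 x) ∧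
    (t = 1 → ∀ x, D l x = d1 a1 x) ∧
    (t ∈ Icc (0 : ℝ) 1 → ∀ x, Tame L (e + D l x) (lin b0 b1 t x) (lin c0 c1 t x))}
  have hC : ∀ t, Convex ℝ (C t) := by
    intro t l hl m hm u v hu hv huv
    have hc : ∀ x, D (u • l + v • m) x = u • D l x + v • D m x := fun x =>
      comb_Glue (fun i => d1 (A i) x) l m u v
    refine ⟨fun ht x => ?_, fun ht x => ?_, fun ht x => ?_⟩
    · rw [hc, hl.1 ht, hm.1 ht, ← add_smul, huv, one_smul]
    · rw [hc, hl.2.1 ht, hm.2.1 ht, ← add_smul, huv, one_smul]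
    · rw [hc]
      exact tame_comb_Glue (hl.2.2 ht x) (hm.2.2 ht x) hu hv huv
  have hloc : ∀ t : ℝ, ∃ l : T' → ℝ, ∀ᶠ s in 𝓝 t, l ∈ C s := by
    intro t
    by_cases ht0 : t = 0
    · subst ht0
      let i0 : T' := ⟨⟨a0, ha0⟩, Finset.mem_insert_self _ _⟩
      have hm : (0 : ℝ) ∈ U i0.1 := fun x => by rw [l0, l0]; exact h0 x
      refine ⟨Pi.single i0 1, ?_⟩
      filter_upwards [(hU i0.1).mem_nhds hm, isOpen_ne.mem_nhds (zero_ne_one : (0 : ℝ) ≠ 1)]
        with s hs hs1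
      exact ⟨fun _ x => hD i0 x, fun h1 => absurd h1 hs1, fun _ x => by rw [hD]; exact hs x⟩
    by_cases ht1 : t = 1
    · subst ht1
      let i1 : T' := ⟨⟨a1, ha1⟩, Finset.mem_insert_of_mem (Finset.mem_insert_self _ _)⟩
      have hm : (1 : ℝ) ∈ U i1.1 := fun x => by rw [l1, l1]; exact h1 x
      refine ⟨Pi.single i1 1, ?_⟩
      filter_upwards [(hU i1.1).mem_nhds hm, isOpen_ne.mem_nhds (one_ne_zero : (1 : ℝ) ≠ 0)]
        with s hs hs1
      exact ⟨fun h1 => absurd h1 hs1, fun _ x => hD i1 x, fun _ x => by rw [hD]; exact hs x⟩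
    by_cases ht : t ∈ Icc (0 : ℝ) 1
    · obtain ⟨a, ha, hm⟩ := mem_iUnion₂.1 (hT ht)
      let i : T' := ⟨a, Finset.mem_insert_of_mem (Finset.mem_insert_of_mem ha)⟩
      refine ⟨Pi.single i 1, ?_⟩
      filter_upwards [(hU a).mem_nhds hm, isOpen_ne.mem_nhds ht0, isOpen_ne.mem_nhds ht1]
        with s hs hs0 hs1
      exact ⟨fun h1 => absurd h1 hs0, fun h1 => absurd h1 hs1, fun _ x => by rw [hD]; exact hs x⟩
    · refine ⟨0, ?_⟩
      filter_upwards [isClosed_Icc.isOpen_compl.mem_nhds ht] with s hs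
      refine ⟨fun h1 => absurd ?_ hs, fun h1 => absurd ?_ hs, fun h1 => absurd h1 hs⟩
      · rw [h1]; exact ⟨le_rfl, zero_le_one⟩
      · rw [h1]; exact ⟨zero_le_one, le_rfl⟩
  obtain ⟨g, hg⟩ := exists_contMDiffMap_forall_mem_convex_of_local_const (n := ⊤)
    (modelWithCornersSelf ℝ ℝ) hC hloc
  have hgs : ContDiff ℝ ∞ g := g.contMDiff.contDiff
  have hβ : ∀ t x, d1 (fun x => ∑ i, g t i • A i x) x = D (g t) x := fun t x =>
    d1_sum_Glue hA (g t) x
  refine ⟨fun t x => ∑ i, g t i • A i x, fun t => form_sum_Glue hA (g t), ?_, fun x => ?_,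
    fun x => ?_, fun t ht x => ?_⟩
  · simp only [hβ, D]
    refine ContDiff.sum fun i _ => ?_
    have k1 : ContDiff ℝ ∞ fun q : ℝ × E => g q.1 i := (contDiff_pi.1 hgs i).comp contDiff_fst
    have k2 : ContDiff ℝ ∞ fun q : ℝ × E => d1 (A i) q.2 :=
      (smooth_d1_Glue (hA i)).comp contDiff_snd
    exact k1.smul k2
  · rw [hβ]; exact (hg 0).1 rfl x
  · rw [hβ]; exact (hg 1).2.1 rfl x
  · rw [hβ]; exact (hg t).2.2 ht x

end

end Vale.Agent.P247
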