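import Vale.Agent.P247.Alg

/-! P247 Fin: uniform constants. finsler: on the compact set P x {mix = 1, other entries 0} the open sets
{wedge z z - n (..) < 0} increase with n and cover (alg_neg); take a finite subcover (IsCompact.elim_directed_cover) and the maximum; both sides depend only
on the mixed part of z and are homogeneous of degree two. alg_pt: z = xi'23 xi - xi23 xi' has z23 = 0, wedge z b = - xi23 wedge xi' (b - b'),
(wedge xi' (b - b'))^2 <= 5 d^2 (xi'23^2 + mix xi') and mix xi' <= C xi'23 by Fins.mix_le; the cases xi23 = 0, xi'23 = 0 are direct (mix = 0).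
Helper names end with _Fin. -/

namespace Vale.Agent.P247

open MeasureTheory Set Filter Topology
open scoped ContDiff

noncomputable section

theorem core_Fin {X : Type} [TopologicalSpace X] {P : Set X} (hP : IsCompact P) {f g m : X → ℝ}
    (hf : Continuous f) (hg : Continuous g) (hm : Continuous m) (g0 : ∀ x, 0 ≤ g x)
    (m0 : ∀ x, 0 ≤ m x) (h : ∀ x ∈ P, g x = 0 → f x < 0) :
    ∃ n : ℕ, ∀ x ∈ P, f x < n * g x - 1 / (n + 1) * m x := by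
  refine hP.elim_directed_cover (fun n : ℕ => {x | f x < n * g x - 1 / (n + 1) * m x})
    (fun n => isOpen_lt hf (by fun_prop)) (fun x hx => mem_iUnion.2 ?_)
    (Monotone.directed_le fun n n' hn x hx => lt_of_lt_of_le (a := f x) hx ?_)
  · rcases (g0 x).eq_or_lt with h1 | h1
    · have h2 := neg_pos.2 (h x hx h1.symm)
      obtain ⟨n, hn⟩ := exists_nat_gt (m x / -f x)
      refine ⟨n, ?_⟩
      rw [div_lt_iff₀ h2] at hn
      rw [mem_ofPred_eq, ← h1, mul_zero, zero_sub, lt_neg, one_div_mul_eq_div,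
        div_lt_iff₀ (by positivity)]
      linarith
    · obtain ⟨n, hn⟩ := exists_nat_gt ((f x + m x) / g x)
      refine ⟨n, ?_⟩
      rw [div_lt_iff₀ h1] at hn
      have h2 : 1 / ((n : ℝ) + 1) ≤ 1 :=
        (div_le_one (by positivity)).2 (le_add_of_nonneg_left n.cast_nonneg)
      rw [mem_ofPred_eq]
      linarith [mul_le_mul_of_nonneg_right h2 (m0 x)]
  · have h1 : (n : ℝ) ≤ n' := Nat.cast_le.2 hn
    exact sub_le_sub (mul_le_mul_of_nonneg_right h1 (g0 x)) (mul_le_mul_of_nonneg_right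
      (one_div_le_one_div_of_le (by positivity) (by linarith)) (m0 x))

def em_Fin (y : Fin 4 → ℝ) : M2 := fun i j =>
  if i = 0 ∧ j = 2 then y 0 else if i = 0 ∧ j = 3 then y 1 else if i = 1 ∧ j = 2 then y 2
  else if i = 1 ∧ j = 3 then y 3 else 0

theorem em_wedge_Fin (y : Fin 4 → ℝ) (a : M2) :
    wedge (em_Fin y) a = -(y 0 * a 1 3) + y 1 * a 1 2 + y 2 * a 0 3 - y 3 * a 0 2 := by
  simp [wedge, em_Fin]

theorem em_sq_Fin (y : Fin 4 → ℝ) :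
    wedge (em_Fin y) (em_Fin y) = 2 * (y 1 * y 2 - y 0 * y 3) := by
  simp [wedge, em_Fin]
  ring

theorem em_mix_Fin (y : Fin 4 → ℝ) : mix (em_Fin y) = y 0 ^ 2 + y 1 ^ 2 + y 2 ^ 2 + y 3 ^ 2 := by
  simp [mix, em_Fin]

theorem finsler {X : Type} [TopologicalSpace X] {P : Set X} (hP : IsCompact P) {b c : X → M2}
    (hb : Continuous b) (hc : Continuous c) (h : ∀ p ∈ P, Pos2 (b p) (c p))
    (hb0 : ∀ p ∈ P, b p 2 3 = 0) (hc0 : ∀ p ∈ P, c p 2 3 = 0) :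
    ∃ k κ R : ℝ, 0 ≤ k ∧ 0 < κ ∧ ∀ p ∈ P, Fins k κ R (b p) (c p) := by
  obtain ⟨R₁, h1⟩ := hP.exists_bound_of_continuousOn (f := fun p => b p 0 1) (by fun_prop)
  obtain ⟨R₂, h2⟩ := hP.exists_bound_of_continuousOn (f := fun p => c p 0 1) (by fun_prop)
  obtain ⟨n, hn⟩ := core_Fin (hP.prod (isCompact_sphere (0 : Fin 4 → ℝ) 1))
    (f := fun x => wedge (em_Fin x.2) (em_Fin x.2))
    (g := fun x => wedge (em_Fin x.2) (b x.1) ^ 2 + wedge (em_Fin x.2) (c x.1) ^ 2)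
    (m := fun x => mix (em_Fin x.2)) (by simp only [em_sq_Fin]; fun_prop)
    (by simp only [em_wedge_Fin]; fun_prop) (by simp only [em_mix_Fin]; fun_prop)
    (fun x => by positivity) (fun x => mix_nonneg_Alg _) fun x hx h0 => by
      have k := (add_eq_zero_iff_of_nonneg (sq_nonneg _) (sq_nonneg _)).1 h0
      refine alg_neg (h _ hx.1) (hb0 _ hx.1) (hc0 _ hx.1) (by simp [em_Fin])
        (pow_eq_zero_iff two_ne_zero |>.1 k.1) (pow_eq_zero_iff two_ne_zero |>.1 k.2) fun e => ?_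
      obtain ⟨k1, k2, k3, k4⟩ := mix_Alg e
      have : x.2 = 0 := funext fun i => by
        fin_cases i
        exacts [k1, k2, k3, k4]
      simpa [this] using hx.2
  refine ⟨n, 1 / (n + 1), max R₁ R₂, n.cast_nonneg, by positivity, fun p hp =>
    ⟨hb0 p hp, hc0 p hp, (h1 p hp).trans (le_max_left _ _), (h2 p hp).trans (le_max_right _ _),
      fun ζ h0 => ?_⟩⟩
  obtain ⟨y, t, hy, e0, e1, e2, e3⟩ : ∃ (y : Fin 4 → ℝ) (t : ℝ), ‖y‖ = 1 ∧ ζ 0 2 = t * y 0 ∧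
      ζ 0 3 = t * y 1 ∧ ζ 1 2 = t * y 2 ∧ ζ 1 3 = t * y 3 := by
    by_cases hz : ![ζ 0 2, ζ 0 3, ζ 1 2, ζ 1 3] = 0
    · exact ⟨1, 0, norm_one, by simpa using congrFun hz 0, by simpa using congrFun hz 1,
        by simpa using congrFun hz 2, by simpa using congrFun hz 3⟩
    · have k := norm_ne_zero_iff.2 hz
      refine ⟨_, ‖![ζ 0 2, ζ 0 3, ζ 1 2, ζ 1 3]‖, norm_smul_inv_norm (𝕜 := ℝ) hz, ?_, ?_, ?_, ?_⟩ <;>
        simp [mul_inv_cancel_left₀ k]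
  have k := mul_le_mul_of_nonneg_left (hn (p, y) ⟨hp, mem_sphere_zero_iff_norm.2 hy⟩).le
    (sq_nonneg t)
  rw [em_sq_Fin, em_wedge_Fin, em_wedge_Fin, em_mix_Fin] at k
  simp only [wedge, mix, h0, hb0 p hp, hc0 p hp, e0, e1, e2, e3]
  linarith

theorem ent_Fin {d : M2} {δ : ℝ} (h : ‖d‖ ^ 2 ≤ δ) (i j : Fin 4) : d i j ^ 2 ≤ δ := by
  refine le_trans ?_ h
  rw [← sq_abs]
  exact pow_le_pow_left₀ (abs_nonneg _) ((norm_le_pi_norm (d i) j).trans (norm_le_pi_norm d i)) 2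

theorem cs_Fin {d : M2} {δ : ℝ} (h : ‖d‖ ^ 2 ≤ δ) (h0 : d 2 3 = 0) (ξ : M2) :
    wedge ξ d ^ 2 ≤ 5 * δ * (mix ξ + ξ 2 3 ^ 2) := by
  have k := fun (i j : Fin 4) (x : ℝ) => mul_le_mul_of_nonneg_left (ent_Fin h i j) (sq_nonneg x)
  have k1 := k 1 3 (ξ 0 2)
  have k2 := k 1 2 (ξ 0 3)
  have k3 := k 0 3 (ξ 1 2)
  have k4 := k 0 2 (ξ 1 3)
  have k5 := k 0 1 (ξ 2 3)
  have k6 : ∀ p q r s t : ℝ,
      (p + q + r + s + t) ^ 2 ≤ 5 * (p ^ 2 + q ^ 2 + r ^ 2 + s ^ 2 + t ^ 2) := fun p q r s t => by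
    nlinarith [sq_nonneg (p - q), sq_nonneg (p - r), sq_nonneg (p - s), sq_nonneg (p - t),
      sq_nonneg (q - r), sq_nonneg (q - s), sq_nonneg (q - t), sq_nonneg (r - s),
      sq_nonneg (r - t), sq_nonneg (s - t)]
  have k7 := k6 (-(ξ 0 2 * d 1 3)) (ξ 0 3 * d 1 2) (ξ 1 2 * d 0 3) (-(ξ 1 3 * d 0 2)) (ξ 2 3 * d 0 1)
  simp only [wedge, mix, h0]
  linarith

theorem flat_Fin {k κ R L : ℝ} {b c ξ : M2} (hk : 0 ≤ k) (hκ : 0 < κ) (hF : Fins k κ R b c)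
    (h : Cone L b c ξ) (h0 : ξ 2 3 = 0) {a : M2} (ha : 0 ≤ a 2 3) : 0 ≤ wedge ξ a := by
  have h1 := hF.mix_le hk h.sq h.ob h.oc
  have h2 := h.fwd
  rw [h0] at h1 h2
  obtain ⟨k1, k2, k3, k4⟩ := mix_Alg ((mix_nonneg_Alg ξ).antisymm'
    (nonpos_of_mul_nonpos_right (a := κ) (by linarith) hκ))
  simpa [wedge, k1, k2, k3, k4, h0] using mul_nonneg (by linarith : 0 ≤ ξ 0 1) ha

theorem alg_pt {k κ : ℝ} (R : ℝ) (hk : 0 ≤ k) (hκ : 0 < κ) :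
    ∃ C : ℝ, 0 ≤ C ∧ ∀ (L δ : ℝ) (b c b' c' ξ ξ' : M2), Fins k κ R b c → Fins k κ R b' c' →
      Cone L b c ξ → Cone L b' c' ξ' → ‖ξ'‖ ≤ 1 → ‖b - b'‖ ^ 2 ≤ δ → ‖c - c'‖ ^ 2 ≤ δ →
      -(C * δ * ξ 2 3) ≤ wedge ξ ξ' := by
  obtain ⟨M, hM, e⟩ : ∃ M : ℝ, 0 ≤ M ∧ κ * M = 2 + 2 * k * R ^ 2 :=
    ⟨(2 + 2 * k * R ^ 2) / κ, by positivity, mul_div_cancel₀ _ hκ.ne'⟩
  refine ⟨5 * k * (M + 1), by positivity,
    fun L δ b c b' c' ξ ξ' hF hF' h h' hn hb hc => ?_⟩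
  have hδ : 0 ≤ δ := (sq_nonneg _).trans hb
  have h0 := h.hor
  have hz : -(5 * k * (M + 1) * δ * ξ 2 3) ≤ 0 := neg_nonpos.2 (by positivity)
  rcases h0.eq_or_lt with h1 | h1
  · exact hz.trans (flat_Fin hk hκ hF h h1.symm h'.hor)
  rcases h'.hor.eq_or_lt with h2 | h2
  · rw [wedge_comm]
    exact hz.trans (flat_Fin hk hκ hF' h' h2.symm h0)
  have n1 : ∀ i j, ξ' i j ≤ 1 := fun i j => (le_abs_self _).trans
    ((norm_le_pi_norm (ξ' i) j).trans ((norm_le_pi_norm ξ' i).trans hn))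
  have n2 : ξ' 2 3 ^ 2 ≤ ξ' 2 3 := by nlinarith [n1 2 3]
  have n3 : mix ξ' ≤ M * ξ' 2 3 := by
    refine le_of_mul_le_mul_left ((hF'.mix_le hk h'.sq h'.ob h'.oc).trans ?_) hκ
    rw [← mul_assoc, e]
    nlinarith [mul_le_mul_of_nonneg_left (n1 0 1) h2.le,
      mul_le_mul_of_nonneg_left n2 (mul_nonneg hk (sq_nonneg R))]
  have k : ∀ {a a' : M2}, a 2 3 = 0 → a' 2 3 = 0 → wedge ξ a = 0 → wedge ξ' a' = 0 →
      ‖a - a'‖ ^ 2 ≤ δ → wedge (ξ' 2 3 • ξ + (-ξ 2 3) • ξ') a ^ 2 ≤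
        ξ 2 3 ^ 2 * (5 * δ * ((M + 1) * ξ' 2 3)) := fun {a a'} k1 k2 k3 k4 k5 => by
    have k6 := cs_Fin k5 (by simp [k1, k2]) ξ'
    rw [sub_eq_add_neg, ← neg_one_smul ℝ a', wedge_add, wedge_smul, k4, mul_zero, add_zero] at k6
    rw [wedge_comm, wedge_add, wedge_smul, wedge_smul, wedge_comm a, wedge_comm a, k3, mul_zero,
      zero_add, mul_pow, neg_sq]
    exact mul_le_mul_of_nonneg_left (k6.trans (mul_le_mul_of_nonneg_left (by linarith)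
      (by positivity))) (sq_nonneg _)
  have k1 := hF.le (ξ' 2 3 • ξ + (-ξ 2 3) • ξ') (by simp [mul_comm])
  have k2 := mul_le_mul_of_nonneg_left (add_le_add (k hF.b23 hF'.b23 h.ob h'.ob hb)
    (k hF.c23 hF'.c23 h.oc h'.oc hc)) hk
  rw [two_Alg] at k1
  refine le_of_mul_le_mul_left ?_ (mul_pos h1 h2)
  linarith [mul_nonneg hκ.le (mix_nonneg_Alg (ξ' 2 3 • ξ + (-ξ 2 3) • ξ')),
    mul_nonneg (sq_nonneg (ξ' 2 3)) h.sq, mul_nonneg (sq_nonneg (-ξ 2 3)) h'.sq]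

end

end Vale.Agent.P247
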