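import Vale.Agent.P247.Cur
import Vale.Agent.P247.Fin

/-! P247 Tam: Hahn-Banach. hb: geometric_hahn_banach_open for the open convex set of positive functions and the affine space f0 + V, then Riesz.
tame: K = {(x, xi) : x in the cube, norm xi = 1, Cone}; the mean s of xi lies in the cone of the constants and is not zero (Cone.pos), alg_fwd gives the
contradiction. Helper names end with _Tam. -/

namespace Vale.Agent.P247

open MeasureTheory Set Filter Topology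
open scoped ContDiff

noncomputable section

open scoped CompactlySupported in
theorem riesz_Tam {X : Type} [TopologicalSpace X] [CompactSpace X] [T2Space X] [MeasurableSpace X]
    [BorelSpace X] (L : C(X, ℝ) →ₗ[ℝ] ℝ) (hL : ∀ f : C(X, ℝ), (∀ x, 0 ≤ f x) → 0 ≤ L f) :
    ∃ μ : Measure X, IsFiniteMeasure μ ∧ ∀ f : C(X, ℝ), ∫ x, f x ∂μ = L f := by
  let L' : C_c(X, ℝ) →ₗ[ℝ] ℝ :=
    { toFun := fun g => L g.toContinuousMap
      map_add' := fun g g' => L.map_add _ _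
      map_smul' := fun c g => L.map_smul _ _ }
  refine ⟨RealRMK.rieszMeasure (PositiveLinearMap.mk₀ L' fun g hg => hL _ hg), inferInstance,
    fun f => ?_⟩
  exact RealRMK.integral_rieszMeasure _ ⟨f, HasCompactSupport.of_compactSpace _⟩

theorem lin_Tam {x u : ℝ} (h : ∀ t : ℝ, 0 < t → t * x < u) : x ≤ 0 := by
  by_contra hx
  have hx := not_le.1 hx
  have := h ((|u| + 1) / x) (by positivity)
  rw [div_mul_cancel₀ _ hx.ne'] at this
  linarith [le_abs_self u]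

theorem hb {K : Type} [TopologicalSpace K] [CompactSpace K] [T2Space K] [MeasurableSpace K]
    [BorelSpace K] (V : Submodule ℝ C(K, ℝ)) (f0 : C(K, ℝ))
    (h : ¬∃ v ∈ V, ∀ k, 0 < f0 k + v k) :
    ∃ ν : Measure K, IsProbabilityMeasure ν ∧ (∀ v ∈ V, ∫ k, v k ∂ν = 0) ∧ ∫ k, f0 k ∂ν ≤ 0 := by
  have hU : IsOpen {f : C(K, ℝ) | MapsTo f univ (Ioi 0)} :=
    ContinuousMap.isOpen_setOfPred_mapsTo isCompact_univ isOpen_Ioi
  have cU : Convex ℝ {f : C(K, ℝ) | MapsTo f univ (Ioi 0)} := fun f hf g hg a b ha hb hab k hk =>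
    convex_Ioi (0 : ℝ) (hf hk) (hg hk) ha hb hab
  have cT : Convex ℝ ((fun v => f0 + v) '' (V : Set C(K, ℝ))) := V.convex.translate f0
  have dj : Disjoint {f : C(K, ℝ) | MapsTo f univ (Ioi 0)} ((fun v => f0 + v) '' V) := by
    rw [Set.disjoint_left]
    rintro _ hf ⟨v, hv, rfl⟩
    exact h ⟨v, hv, fun k => hf (mem_univ k)⟩
  obtain ⟨φ, u, h1, h2⟩ := geometric_hahn_banach_open cU hU cT dj
  have h1' : ∀ f : C(K, ℝ), (∀ k, 0 < f k) → φ f < u := fun f hf => h1 f fun k _ => hf k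
  have h2' : ∀ v ∈ V, u ≤ φ f0 + φ v := fun v hv => map_add φ f0 v ▸ h2 _ ⟨v, hv, rfl⟩
  have h3 : u ≤ φ f0 := by simpa using h2' 0 V.zero_mem
  have h4 : ∀ v ∈ V, -φ v ≤ 0 := fun v hv => lin_Tam (u := φ f0 - u + 1) fun t _ => by
    have := h2' _ (V.smul_mem t hv)
    rw [map_smul, smul_eq_mul] at this
    linarith
  have h5 : ∀ v ∈ V, φ v = 0 := fun v hv => by
    have a1 := h4 v hv
    have a2 := h4 _ (V.neg_mem hv)
    rw [map_neg] at a2
    linarith
  have h6 : ∀ f : C(K, ℝ), (∀ k, 0 ≤ f k) → φ f ≤ 0 := fun f hf =>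
    lin_Tam (u := u - φ 1) fun t ht => by
      have := h1' (t • f + 1) fun k => by
        have := mul_nonneg ht.le (hf k)
        show 0 < t * f k + 1
        linarith
      rw [map_add, map_smul, smul_eq_mul] at this
      linarith
  have h7 : φ 1 < 0 := by
    have := h1' (f0 + (‖f0‖ + 1) • (1 : C(K, ℝ))) fun k => by
      have := (abs_le.1 (f0.norm_coe_le_norm k)).1
      show 0 < f0 k + (‖f0‖ + 1) * 1
      linarith
    rw [map_add, map_smul, smul_eq_mul] at this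
    by_contra h0
    linarith [mul_nonneg (by positivity : 0 ≤ ‖f0‖ + 1) (not_lt.1 h0)]
  have h8 : 0 ≤ u := by
    by_contra h0
    have h0 := not_le.1 h0
    have hp := div_pos_of_neg_of_neg h0 h7
    have := h1' ((u / φ 1) • (1 : C(K, ℝ))) fun k => by
      show 0 < u / φ 1 * 1
      linarith
    rw [map_smul, smul_eq_mul, div_mul_cancel₀ _ h7.ne] at this
    exact lt_irrefl _ this
  have h9 : (φ 1)⁻¹ ≤ 0 := (inv_lt_zero.2 h7).le
  obtain ⟨μ, hμ, e⟩ := riesz_Tam ((φ 1)⁻¹ • φ.toLinearMap) fun f hf =>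
    mul_nonneg_of_nonpos_of_nonpos h9 (h6 f hf)
  have e' : ∀ f : C(K, ℝ), ∫ x, f x ∂μ = (φ 1)⁻¹ * φ f := e
  refine ⟨μ, isProbabilityMeasure_iff_real.2 ?_, fun v hv => by rw [e', h5 v hv, mul_zero], ?_⟩
  · have := e' 1
    rw [inv_mul_cancel₀ h7.ne] at this
    simpa using this
  · rw [e']
    exact mul_nonpos_of_nonpos_of_nonneg h9 (h8.trans h3)

theorem d1_add_Tam {a a' : E → Fin 4 → ℝ} (h : IsForm1 a) (h' : IsForm1 a') (x : E) :
    d1 (a + a') x = d1 a x + d1 a' x := by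
  funext i j
  simp only [d1, Pi.add_apply]
  rw [pd_add (h.sp j) (h'.sp j), pd_add (h.sp i) (h'.sp i)]
  ring

theorem d1_smul_Tam {a : E → Fin 4 → ℝ} (h : IsForm1 a) (t : ℝ) (x : E) :
    d1 (t • a) x = t • d1 a x := by
  funext i j
  simp only [d1, Pi.smul_apply, smul_eq_mul]
  rw [pd_cmul (h.sp j), pd_cmul (h.sp i)]
  ring

theorem d1_per_Tam {a : E → Fin 4 → ℝ} (h : IsForm1 a) : Per (d1 a) := fun x k => by
  funext i j
  simp only [d1]
  rw [((h.sp j).pd i).per, ((h.sp i).pd j).per]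

theorem d1_cont_Tam {a : E → Fin 4 → ℝ} (h : IsForm1 a) : Continuous (d1 a) :=
  continuous_pi fun i => continuous_pi fun j =>
    ((h.sp j).pd i).smooth.continuous.sub ((h.sp i).pd j).smooth.continuous

theorem smul_wedge_Tam (t : ℝ) (a b : M2) : wedge (t • a) b = t * wedge a b := by
  rw [wedge_comm, wedge_smul, wedge_comm]

theorem cone_smul_Tam {L t : ℝ} {b c ξ : M2} (h : Cone L b c ξ) (ht : 0 ≤ t) :
    Cone L b c (t • ξ) where
  skew i j := by
    simp only [Pi.smul_apply, smul_eq_mul]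
    rw [h.skew i j]
    ring
  sq := by
    rw [smul_wedge_Tam, wedge_smul]
    exact mul_nonneg ht (mul_nonneg ht h.sq)
  ob := by rw [smul_wedge_Tam, h.ob, mul_zero]
  oc := by rw [smul_wedge_Tam, h.oc, mul_zero]
  hor := mul_nonneg ht h.hor
  fwd := by
    have := mul_nonneg ht h.fwd
    simp only [Pi.smul_apply, smul_eq_mul]
    linarith

theorem cont_wedge_Tam {X : Type} [TopologicalSpace X] {f g : X → M2} (hf : Continuous f)
    (hg : Continuous g) : Continuous fun x => wedge (f x) (g x) :=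
  continuous_wedge.comp (hf.prodMk hg)

/-- The compact space of unit vectors of the cones. -/
def K_Tam (L : ℝ) (b c : E → M2) : Set (E × M2) :=
  (Icc 0 1 ×ˢ Metric.sphere 0 1) ∩ {p | Cone L (b p.1) (c p.1) p.2}

theorem compact_Tam (L : ℝ) {b c : E → M2} (hb : Continuous b) (hc : Continuous c) :
    IsCompact (K_Tam L b c) := by
  refine (isCompact_Icc.prod (isCompact_sphere _ _)).inter_right ?_
  have e : {p : E × M2 | Cone L (b p.1) (c p.1) p.2} =
      (⋂ i, ⋂ j, {p | p.2 i j = -p.2 j i}) ∩ ({p | 0 ≤ wedge p.2 p.2} ∩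
        ({p | wedge p.2 (b p.1) = 0} ∩ ({p | wedge p.2 (c p.1) = 0} ∩
          ({p | 0 ≤ p.2 2 3} ∩ {p | 0 ≤ p.2 0 1 + L * p.2 2 3})))) := by
    ext p
    simp only [mem_inter_iff, mem_iInter, mem_ofPred_eq]
    exact ⟨fun h => ⟨h.skew, h.sq, h.ob, h.oc, h.hor, h.fwd⟩,
      fun h => ⟨h.1, h.2.1, h.2.2.1, h.2.2.2.1, h.2.2.2.2.1, h.2.2.2.2.2⟩⟩
  rw [e]
  refine (isClosed_iInter fun i => isClosed_iInter fun j =>
    isClosed_eq (by fun_prop) (by fun_prop)).inter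
    ((isClosed_le continuous_const (cont_wedge_Tam continuous_snd continuous_snd)).inter
    ((isClosed_eq (cont_wedge_Tam continuous_snd (hb.comp continuous_fst)) continuous_const).inter
    ((isClosed_eq (cont_wedge_Tam continuous_snd (hc.comp continuous_fst)) continuous_const).inter
    ((isClosed_le continuous_const (by fun_prop)).inter
      (isClosed_le continuous_const (by fun_prop))))))

theorem int_wedge_Tam {K : Type} [MeasurableSpace K] {ν : Measure K} {ξ : K → M2}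
    (h : ∀ i j, Integrable (fun k => ξ k i j) ν) (m : M2) :
    wedge (fun i j => ∫ k, ξ k i j ∂ν) m = ∫ k, wedge (ξ k) m ∂ν := by
  have i := fun i j i' j' => (h i j).mul_const (m i' j')
  simp only [wedge]
  rw [integral_add (f := fun k => ξ k 0 1 * m 2 3 - ξ k 0 2 * m 1 3 + ξ k 0 3 * m 1 2 +
        ξ k 1 2 * m 0 3 - ξ k 1 3 * m 0 2)
      (((((i 0 1 2 3).sub (i 0 2 1 3)).add (i 0 3 1 2)).add (i 1 2 0 3)).sub
      (i 1 3 0 2)) (i 2 3 0 1),
    integral_sub (f := fun k => ξ k 0 1 * m 2 3 - ξ k 0 2 * m 1 3 + ξ k 0 3 * m 1 2 +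
        ξ k 1 2 * m 0 3) ((((i 0 1 2 3).sub (i 0 2 1 3)).add (i 0 3 1 2)).add (i 1 2 0 3))
      (i 1 3 0 2),
    integral_add (f := fun k => ξ k 0 1 * m 2 3 - ξ k 0 2 * m 1 3 + ξ k 0 3 * m 1 2)
      (((i 0 1 2 3).sub (i 0 2 1 3)).add (i 0 3 1 2)) (i 1 2 0 3),
    integral_add (f := fun k => ξ k 0 1 * m 2 3 - ξ k 0 2 * m 1 3)
      ((i 0 1 2 3).sub (i 0 2 1 3)) (i 0 3 1 2),
    integral_sub (i 0 1 2 3) (i 0 2 1 3)]
  simp only [integral_mul_const]

theorem core_Tam {K : Type} [TopologicalSpace K] [CompactSpace K] [SecondCountableTopology K]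
    [MeasurableSpace K] [BorelSpace K] (ν : Measure K) [IsProbabilityMeasure ν]
    {X : K → E} {ξ : K → M2} (hX : Continuous X) (hξ : Continuous ξ)
    {b c : E → M2} {b0 c0 : M2} {k κ R L : ℝ} (hb : IsForm2 b) (hc : IsForm2 c)
    (hb0 : ∃ a, IsForm1 a ∧ ∀ x, b x = b0 + d1 a x) (hc0 : ∃ a, IsForm1 a ∧ ∀ x, c x = c0 + d1 a x)
    (hk : 0 ≤ k) (hκ : 0 < κ) (hF : ∀ x, Fins k κ R (b x) (c x))
    (hC : ∀ q, Cone L (b (X q)) (c (X q)) (ξ q)) (hn : ∀ q, ‖ξ q‖ = 1)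
    (hcl : ∀ a, IsForm1 a → ∫ q, wedge (ξ q) (d1 a (X q)) ∂ν = 0) :
    Cone L b0 c0 (fun i j => ∫ q, ξ q i j ∂ν) ∧ (fun i j => ∫ q, ξ q i j ∂ν) ≠ 0 := by
  have hi : ∀ i j, Integrable (fun q => ξ q i j) ν := fun i j =>
    (by fun_prop : Continuous fun q => ξ q i j).integrable_of_hasCompactSupport
      (HasCompactSupport.of_compactSpace _)
  have ho : ∀ {w : E → M2} {w0 : M2}, (∃ a, IsForm1 a ∧ ∀ x, w x = w0 + d1 a x) →
      (∀ q, wedge (ξ q) (w (X q)) = 0) → wedge (fun i j => ∫ q, ξ q i j ∂ν) w0 = 0 := by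
    rintro w w0 ⟨a, ha, e⟩ h0
    have : ∀ q, wedge (ξ q) w0 = -wedge (ξ q) (d1 a (X q)) := fun q => by
      have := h0 q
      rw [e, wedge_add] at this
      linarith
    rw [int_wedge_Tam hi]
    simp only [this]
    rw [integral_neg, hcl a ha, neg_zero]
  have e1 : ∫ q, (ξ q 0 1 + L * ξ q 2 3) ∂ν = ∫ q, ξ q 0 1 ∂ν + L * ∫ q, ξ q 2 3 ∂ν := by
    rw [integral_add (hi 0 1) ((hi 2 3).const_mul L), integral_const_mul]
  refine ⟨⟨fun i j => ?_, ?_, ho hb0 fun q => (hC q).ob, ho hc0 fun q => (hC q).oc,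
    integral_nonneg fun q => (hC q).hor, ?_⟩, fun h0 => ?_⟩
  · rw [← integral_neg]
    exact integral_congr_ae (Eventually.of_forall fun q => (hC q).skew i j)
  · obtain ⟨C, hC0, h⟩ := alg_pt R hk hκ
    obtain ⟨Lb, hLb, lb⟩ := lip hb.smooth hb.per
    obtain ⟨Lc, hLc, lc⟩ := lip hc.smooth hc.per
    refine cur_main ν hX hξ (fun q => (hC q).skew) hcl (fun q => (hC q).hor)
      (C := C * (Lb + Lc)) (by positivity) fun q l => ?_
    have hs : 0 ≤ ∑ i, sn (X q i - X l i) := Finset.sum_nonneg fun i _ => sn_nonneg _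
    have := h L ((Lb + Lc) * ∑ i, sn (X q i - X l i)) _ _ _ _ _ _ (hF (X q)) (hF (X l)) (hC q)
      (hC l) (hn l).le ((lb _ _).trans (mul_le_mul_of_nonneg_right (by linarith) hs))
      ((lc _ _).trans (mul_le_mul_of_nonneg_right (by linarith) hs))
    rwa [← mul_assoc] at this
  · show 0 ≤ ∫ q, ξ q 0 1 ∂ν + L * ∫ q, ξ q 2 3 ∂ν
    rw [← e1]
    exact integral_nonneg fun q => (hC q).fwd
  · have hp : ∀ q, 0 < ξ q 2 3 + (ξ q 0 1 + L * ξ q 2 3) := fun q =>
      (hC q).pos (hF _) hk hκ fun h => by simpa [h] using hn q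
    have i2 : Integrable (fun q => ξ q 0 1 + L * ξ q 2 3) ν := (hi 0 1).add ((hi 2 3).const_mul L)
    have h1 : 0 < ∫ q, (ξ q 2 3 + (ξ q 0 1 + L * ξ q 2 3)) ∂ν := by
      rw [integral_pos_iff_support_of_nonneg (fun q => (hp q).le) ((hi 2 3).add i2),
        Function.support_eq_univ fun q => (hp q).ne']
      simp
    rw [integral_add (hi 2 3) i2, e1, congrFun (congrFun h0 2) 3, congrFun (congrFun h0 0) 1] at h1
    simp at h1

theorem tame {b c : E → M2} {a0 b0 c0 : M2} {k κ R : ℝ} (L : ℝ) (hb : IsForm2 b) (hc : IsForm2 c)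
    (hb0 : ∃ a, IsForm1 a ∧ ∀ x, b x = b0 + d1 a x) (hc0 : ∃ a, IsForm1 a ∧ ∀ x, c x = c0 + d1 a x)
    (hk : 0 ≤ k) (hκ : 0 < κ) (hF : ∀ x, Fins k κ R (b x) (c x)) (h3 : Pos3 a0 b0 c0)
    (hb23 : b0 2 3 = 0) (hc23 : c0 2 3 = 0) (ha23 : 0 < a0 2 3) :
    ∃ a, IsForm1 a ∧ ∀ x, Tame L (a0 + d1 a x) (b x) (c x) := by
  by_contra hcon
  have := isCompact_iff_compactSpace.1 (compact_Tam L hb.smooth.continuous hc.smooth.continuous)
  have hX : Continuous fun q : K_Tam L b c => q.1.1 := by fun_prop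
  have hξ : Continuous fun q : K_Tam L b c => q.1.2 := by fun_prop
  have f0 : IsForm1 (0 : E → Fin 4 → ℝ) := ⟨contDiff_const, fun _ _ => rfl⟩
  let V : Submodule ℝ C(K_Tam L b c, ℝ) :=
    { carrier := {v | ∃ a, IsForm1 a ∧ ∀ q, v q = wedge q.1.2 (d1 a q.1.1)}
      add_mem' := by
        rintro v v' ⟨a, ha, e⟩ ⟨a', ha', e'⟩
        refine ⟨a + a', ⟨ha.smooth.add ha'.smooth, fun x m => ?_⟩, fun q => ?_⟩
        · rw [Pi.add_apply, Pi.add_apply, ha.per, ha'.per]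
        · rw [d1_add_Tam ha ha', wedge_add, ← e, ← e', ContinuousMap.add_apply]
      zero_mem' := ⟨(0 : ℝ) • 0, by rwa [zero_smul], fun q => by
        rw [d1_smul_Tam f0, wedge_smul, zero_mul, ContinuousMap.zero_apply]⟩
      smul_mem' := by
        rintro t v ⟨a, ha, e⟩
        refine ⟨t • a, ⟨ha.smooth.const_smul t, fun x m => ?_⟩, fun q => ?_⟩
        · rw [Pi.smul_apply, Pi.smul_apply, ha.per]
        · rw [d1_smul_Tam ha, wedge_smul, ← e, ContinuousMap.smul_apply, smul_eq_mul] }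
  obtain ⟨ν, hν, h1, h2⟩ := P247.hb V ⟨fun q => wedge q.1.2 a0, cont_wedge_Tam hξ continuous_const⟩ (by
    rintro ⟨v, ⟨a, ha, e⟩, hv⟩
    refine hcon ⟨a, ha, fun x ξ hC h0 => ?_⟩
    obtain ⟨m, hm⟩ := exists_cube x
    have hn : 0 < ‖ξ‖ := norm_pos_iff.2 h0
    have := hv ⟨(x + fun i => (m i : ℝ), ‖ξ‖⁻¹ • ξ), ⟨hm, by
      rw [mem_sphere_zero_iff_norm, norm_smul, norm_inv, norm_norm, inv_mul_cancel₀ hn.ne']⟩, by
        show Cone L (b (x + fun i => (m i : ℝ))) (c (x + fun i => (m i : ℝ))) (‖ξ‖⁻¹ • ξ)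
        rw [hb.per, hc.per]
        exact cone_smul_Tam hC (inv_pos.2 hn).le⟩
    rw [e] at this
    have h4 : 0 < wedge (‖ξ‖⁻¹ • ξ) a0 +
      wedge (‖ξ‖⁻¹ • ξ) (d1 a (x + fun i => (m i : ℝ))) := this
    rw [d1_per_Tam ha, ← wedge_add, smul_wedge_Tam] at h4
    exact (mul_pos_iff_of_pos_left (inv_pos.2 hn)).1 h4)
  obtain ⟨h4, h5⟩ := core_Tam ν hX hξ hb hc hb0 hc0 hk hκ hF (fun q => q.2.2)
    (fun q => mem_sphere_zero_iff_norm.1 q.2.1.2) fun a ha =>
      h1 ⟨_, cont_wedge_Tam hξ ((d1_cont_Tam ha).comp hX)⟩ ⟨a, ha, fun _ => rfl⟩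
  have h6 := alg_fwd h3 hb23 hc23 ha23 L _ h4 h5
  rw [int_wedge_Tam fun i j => (by fun_prop : Continuous fun q : K_Tam L b c =>
    q.1.2 i j).integrable_of_hasCompactSupport (HasCompactSupport.of_compactSpace _)] at h6
  exact absurd h2 (not_le.2 h6)

end

end Vale.Agent.P247
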