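import Vale.Agent.P247.Pair
import Vale.Agent.P247.Tam
import Vale.Agent.P247.Glue

/-! P247 Core: assembly. c i = avg (w i), wedge (c i) (c j) = delta (int_wedge), p from potential for w 1, kappa i = pbf (c i) p,
W t 0 = c 0 + d1 (beta t), W t i = lin (w i) (kappa i) t for i = 1, 2. Helper names end with _Core. -/

namespace Vale.Agent.P247

open MeasureTheory Set Filter Topology
open scoped ContDiff

noncomputable section

theorem lin_form_Core {b0 b1 : E → M2} (h0 : IsForm2 b0) (h1 : IsForm2 b1) (t : ℝ) :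
    IsForm2 (lin b0 b1 t) := by
  refine isForm2_of (fun i j => ?_) (fun x i j => ?_)
  · exact ((sp_const (1 - t)).mul (h0.sp i j)).add ((sp_const t).mul (h1.sp i j))
  · show (1 - t) * b0 x i j + t * b1 x i j = -((1 - t) * b0 x j i + t * b1 x j i)
    rw [h0.skew x i j, h1.skew x i j]
    ring

theorem d1_comb_Core {a b : E → Fin 4 → ℝ} (ha : IsForm1 a) (hb : IsForm1 b) (s t : ℝ) :
    IsForm1 (fun x i => s * a x i + t * b x i) ∧
      ∀ x, d1 (fun x i => s * a x i + t * b x i) x = s • d1 a x + t • d1 b x := by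
  refine ⟨isForm1_of fun i => ((sp_const s).mul (ha.sp i)).add ((sp_const t).mul (hb.sp i)),
    fun x => ?_⟩
  funext i j
  have e : ∀ i j, pd i (fun y => s * a y j + t * b y j) x =
      s * pd i (fun y => a y j) x + t * pd i (fun y => b y j) x := by
    intro i j
    rw [pd_add ((sp_const s).mul (ha.sp j)) ((sp_const t).mul (hb.sp j)), pd_cmul (ha.sp j),
      pd_cmul (hb.sp j)]
  show pd i (fun y => s * a y j + t * b y j) x - pd j (fun y => s * a y i + t * b y i) x =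
    s * (pd i (fun y => a y j) x - pd j (fun y => a y i) x) +
      t * (pd i (fun y => b y j) x - pd j (fun y => b y i) x)
  rw [e, e]
  ring

theorem lin_exact_Core {b0 b1 : E → M2} {c : M2} (h0 : ∃ a, IsForm1 a ∧ ∀ x, b0 x = c + d1 a x)
    (h1 : ∃ a, IsForm1 a ∧ ∀ x, b1 x = c + d1 a x) (t : ℝ) :
    ∃ a, IsForm1 a ∧ ∀ x, lin b0 b1 t x = c + d1 a x := by
  obtain ⟨a, ha, e0⟩ := h0
  obtain ⟨b, hb, e1⟩ := h1
  obtain ⟨k1, k2⟩ := d1_comb_Core ha hb (1 - t) t
  refine ⟨_, k1, fun x => ?_⟩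
  rw [k2, lin, e0, e1]
  module

theorem cohom_Core {b0 b1 : E → M2} {c : M2} (h0 : ∃ a, IsForm1 a ∧ ∀ x, b0 x = c + d1 a x)
    (h1 : ∃ a, IsForm1 a ∧ ∀ x, b1 x = c + d1 a x) : Cohom b0 b1 := by
  obtain ⟨a, ha, e0⟩ := h0
  obtain ⟨b, hb, e1⟩ := h1
  obtain ⟨k1, k2⟩ := d1_comb_Core ha hb (-1) 1
  refine ⟨_, k1, fun x => ?_⟩
  rw [k2, e0, e1]
  module

theorem closed_exact_Core {b : E → M2} {c : M2} (h : ∃ a, IsForm1 a ∧ ∀ x, b x = c + d1 a x) :
    Closed b := by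
  obtain ⟨a, ha, e⟩ := h
  rw [show b = fun x => c + d1 a x from funext e]
  exact closed_d1 c ha

theorem pos3_on_Core {a b c : M2} {d : ℝ} (hd : 0 < d) (haa : wedge a a = d) (hbb : wedge b b = d)
    (hcc : wedge c c = d) (hab : wedge a b = 0) (hac : wedge a c = 0) (hbc : wedge b c = 0) :
    Pos3 a b c := by
  intro p q r h
  have e : wedge (p • a + q • b + r • c) (p • a + q • b + r • c) =
      p ^ 2 * wedge a a + q ^ 2 * wedge b b + r ^ 2 * wedge c c + 2 * p * q * wedge a b +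
        2 * p * r * wedge a c + 2 * q * r * wedge b c := by
    simp only [wedge, Pi.add_apply, Pi.smul_apply, smul_eq_mul]
    ring
  rw [e, haa, hbb, hcc, hab, hac, hbc]
  have : 0 < p ^ 2 + q ^ 2 + r ^ 2 := by
    rcases h with h | h | h
    · positivity
    · positivity
    · positivity
  nlinarith [mul_pos this hd]

theorem lin_smooth_Core {b0 b1 : E → M2} (h0 : IsForm2 b0) (h1 : IsForm2 b1) :
    ContDiff ℝ ∞ fun q : ℝ × E => lin b0 b1 q.1 q.2 :=
  ((contDiff_const.sub contDiff_fst).smul (h0.smooth.comp contDiff_snd)).add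
    (contDiff_fst.smul (h1.smooth.comp contDiff_snd))

theorem pos_of_mul_pos_left' {a b : ℝ} (h : 0 < a * b) (ha : 0 < a) : 0 < b := by
  by_contra hc
  nlinarith [not_lt.1 hc]

theorem core {w : Fin 3 → E → M2} (h : Hyp w) (hn : Normalized w) (h0 : ∀ x, 0 < w 0 x 2 3)
    (h1 : ∀ x, w 1 x 2 3 = 0) (h2 : ∀ x, w 2 x 2 3 = 0) : ∃ W, Deform w W ∧ HK (W 1) := by
  have hw3 : ∀ x, Pos3 (w 0 x) (w 1 x) (w 2 x) := fun x => (pos3_iff fun i => w i x).1 (h.pos x)
  have hc : ∀ i j, wedge (avg (w i)) (avg (w j)) = if i = j then 1 else 0 := fun i j => by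
    rw [← int_wedge (h.form i) (h.closed i) (h.form j) (h.closed j)]
    exact hn i j
  have hsk : ∀ i, Skew (avg (w i)) := fun i => avg_skew (h.form i)
  have hc1 : avg (w 1) 2 3 = 0 := by simp [avg, h1]
  have hc2 : avg (w 2) 2 3 = 0 := by simp [avg, h2]
  have hc0 : 0 < avg (w 0) 2 3 := by
    have := sign_int ((h.form 0).sp 2 3).smooth.continuous (fun x => (h0 x).ne') 0
    exact pos_of_mul_pos_left' this (h0 0)
  have hc3 : Pos3 (avg (w 0)) (avg (w 1)) (avg (w 2)) :=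
    pos3_on_Core one_pos (by simp [hc]) (by simp [hc]) (by simp [hc]) (by simp [hc]) (by simp [hc])
      (by simp [hc])
  obtain ⟨p, hp, hG⟩ := potential (h.form 1) (h.closed 1) h1
    (fun x => by simpa using hw3 x 0 1 0 (by simp)) (by simp [hc])
  have hκ := fun i => pbf_form hp (hsk i)
  have hκe := fun i => pbf_eq hp (hsk i)
  have hwe := fun i => poincare (h.form i) (h.closed i)
  have hκw : ∀ x i j, wedge (pbf (avg (w i)) p x) (pbf (avg (w j)) p x) =
      detB (jac p x) * if i = j then 1 else 0 := fun x i j => by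
    rw [← hc i j]
    exact wedge_pb (hG x).1 (hsk i) (hsk j)
  have hκ3 : ∀ x, Pos3 (pbf (avg (w 0)) p x) (pbf (avg (w 1)) p x) (pbf (avg (w 2)) p x) :=
    fun x => pos3_on_Core (hG x).2.1 (by simp [hκw]) (by simp [hκw]) (by simp [hκw])
      (by simp [hκw]) (by simp [hκw]) (by simp [hκw])
  have hκ1 : ∀ x, pbf (avg (w 1)) p x 2 3 = 0 := fun x => by
    rw [pbf, pb_23 (hG x).1 (hsk 1), hc1, mul_zero]
  have hκ2 : ∀ x, pbf (avg (w 2)) p x 2 3 = 0 := fun x => by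
    rw [pbf, pb_23 (hG x).1 (hsk 2), hc2, mul_zero]
  have hκ0 : ∀ x, 0 < pbf (avg (w 0)) p x 2 3 := fun x => by
    have k1 := sign_int ((hκ 0).1.sp 2 3).smooth.continuous
      (fun x => alg_a23 (hκ3 x) (hκ1 x) (hκ2 x)) x
    have k2 : ∫ y in Icc (0 : E) 1, pbf (avg (w 0)) p y 2 3 = avg (w 0) 2 3 :=
      congrFun (congrFun (hκ 0).2.2 2) 3
    rw [k2, mul_comm] at k1
    exact pos_of_mul_pos_left' k1 hc0
  have hpair : ∀ t ∈ Icc (0 : ℝ) 1, ∀ x,
      Pos2 (lin (w 1) (pbf (avg (w 1)) p) t x) (lin (w 2) (pbf (avg (w 2)) p) t x) :=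
    fun t ht x => pair_path (h.form 1) (h.form 2) (h.closed 2) h1 h2 (fun x => (hw3 x).pos2) hp hG
      ht x
  have hl1 := lin_form_Core (h.form 1) (hκ 1).1
  have hl2 := lin_form_Core (h.form 2) (hκ 2).1
  have hs1 := lin_smooth_Core (h.form 1) (hκ 1).1
  have hs2 := lin_smooth_Core (h.form 2) (hκ 2).1
  obtain ⟨k, κ, R, hk, hκp, hF⟩ := finsler (P := Icc (0 : ℝ) 1 ×ˢ Icc (0 : E) 1)
    (isCompact_Icc.prod isCompact_Icc) hs1.continuous hs2.continuous
    (fun q hq => hpair q.1 hq.1 q.2)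
    (fun q _ => by simp [lin, h1, hκ1]) (fun q _ => by simp [lin, h2, hκ2])
  have hF' : ∀ t ∈ Icc (0 : ℝ) 1, ∀ x,
      Fins k κ R (lin (w 1) (pbf (avg (w 1)) p) t x) (lin (w 2) (pbf (avg (w 2)) p) t x) := by
    intro t ht x
    obtain ⟨n, hn⟩ := exists_cube x
    have := hF (t, x + fun i => (n i : ℝ)) ⟨ht, hn⟩
    rwa [(hl1 t).per x n, (hl2 t).per x n] at this
  have he1 := lin_exact_Core (hwe 1) (hκe 1)
  have he2 := lin_exact_Core (hwe 2) (hκe 2)
  obtain ⟨a0, ha0, ea0⟩ := hwe 0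
  obtain ⟨a1, ha1, ea1⟩ := hκe 0
  obtain ⟨β, hβ, hβs, hβ0, hβ1, hβt⟩ := glue (e := avg (w 0)) (L := k * R ^ 2) (h.form 1) (hκ 1).1
    (h.form 2) (hκ 2).1 ha0 ha1
    (fun x => by rw [← ea0]; exact alg_fwd (hw3 x) (h1 x) (h2 x) (h0 x) _)
    (fun x => by rw [← ea1]; exact alg_fwd (hκ3 x) (hκ1 x) (hκ2 x) (hκ0 x) _)
    (fun t ht => tame _ (hl1 t) (hl2 t) (he1 t) (he2 t) hk hκp (hF' t ht) hc3 hc1 hc2 hc0)
  let W : ℝ → Fin 3 → E → M2 := fun t => ![fun x => avg (w 0) + d1 (β t) x,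
    lin (w 1) (pbf (avg (w 1)) p) t, lin (w 2) (pbf (avg (w 2)) p) t]
  have hWe : ∀ t i, ∃ a, IsForm1 a ∧ ∀ x, W t i x = avg (w i) + d1 a x := by
    intro t i
    fin_cases i
    · exact ⟨β t, hβ t, fun x => rfl⟩
    · exact he1 t
    · exact he2 t
  have hWf : ∀ t i, IsForm2 (W t i) := by
    intro t i
    fin_cases i
    · exact isForm2_d1 _ (hsk 0) (hβ t)
    · exact hl1 t
    · exact hl2 t
  have hW : ∀ t ∈ Icc (0 : ℝ) 1, Hyp (W t) := fun t ht =>
    ⟨hWf t, fun i => closed_exact_Core (hWe t i), fun x => (pos3_iff fun i => W t i x).2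
      (alg_back (hpair t ht x) (hF' t ht x) hk hκp ((hWf t 0).skew x) ((hWf t 1).skew x)
        ((hWf t 2).skew x) (hβt t ht x))⟩
  have hW1 : ∀ i x, W 1 i x = pbf (avg (w i)) p x := by
    intro i x
    fin_cases i
    · show avg (w 0) + d1 (β 1) x = pbf (avg (w 0)) p x
      rw [hβ1, ea1]
    · show lin (w 1) (pbf (avg (w 1)) p) 1 x = pbf (avg (w 1)) p x
      simp [lin]
    · show lin (w 2) (pbf (avg (w 2)) p) 1 x = pbf (avg (w 2)) p x
      simp [lin]
  refine ⟨W, ⟨?_, ?_, hW, fun t _ i => cohom_Core (poincare (h.form i) (h.closed i)) (hWe t i)⟩,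
    hW 1 ⟨zero_le_one, le_rfl⟩, fun x => detB (jac p x) / 2, fun x => ⟨half_pos (hG x).2.1, ?_⟩⟩
  · refine contDiff_pi.2 fun i => ?_
    fin_cases i
    · exact contDiff_const.add hβs
    · exact hs1
    · exact hs2
  · funext i x
    fin_cases i
    · show avg (w 0) + d1 (β 0) x = w 0 x
      rw [hβ0, ea0 x]
    · show lin (w 1) (pbf (avg (w 1)) p) 0 x = w 1 x
      simp [lin]
    · show lin (w 2) (pbf (avg (w 2)) p) 0 x = w 2 x
      simp [lin]
  · intro i j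
    rw [hW1, hW1, hκw]
    split_ifs <;> ring

end

end Vale.Agent.P247
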