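import Vale.Agent.P247.Ops

/-! P247 Ker: kernels. lip: the derivative is bounded (periodic, exists_cube), subtract k i = round (x i - y i), and 4 u^2 <= sn u for |u| <= 1/2
(Real.mul_abs_le_abs_sin or Real.mul_le_sin). logdiv: sn u <= pi^2 u^2 <= 16 u^2; restrict the inner integral to [0, v]; the integral of
v / (32 v^2 + e^2) over [0, 1] is log (1 + 32 / e^2) / 64. bump: g u = expNegInvGlue (e^2 - sn u). Helper names end with _Ker. -/

namespace Vale.Agent.P247

open MeasureTheory Set Filter Topology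
open scoped ContDiff

noncomputable section

theorem sn_smooth : ContDiff ℝ ∞ sn := by
  unfold sn
  fun_prop
theorem sn_nonneg (u : ℝ) : 0 ≤ sn u := sq_nonneg _
theorem sn_int (u : ℝ) (k : ℤ) : sn (u + k) = sn u := by
  rw [sn, sn, mul_add, mul_comm Real.pi (k : ℝ), Real.sin_add_int_mul_pi, mul_pow]
  rcases Int.even_or_odd k with h | h
  · rw [h.neg_one_zpow]
    ring
  · rw [h.neg_one_zpow]
    ring
theorem low_Ker {u : ℝ} (h : |u| ≤ 1 / 2) : u ^ 2 ≤ sn u := by
  have hp := Real.pi_pos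
  have h1 : |Real.pi * u| = Real.pi * |u| := by rw [abs_mul, abs_of_pos hp]
  have h2 := Real.mul_abs_le_abs_sin (x := Real.pi * u) (by rw [h1]; nlinarith)
  have h3 : 2 / Real.pi * |Real.pi * u| = 2 * |u| := by
    rw [h1]
    field_simp
  rw [sn, sq_le_sq]
  linarith [abs_nonneg u]

theorem up_Ker (u : ℝ) : sn u ≤ 16 * u ^ 2 := by
  have h1 : sn u ≤ (Real.pi * u) ^ 2 := Real.sin_sq_le_sq
  have h2 : Real.pi ^ 2 ≤ 16 := by nlinarith [Real.pi_pos, Real.pi_le_four]
  rw [mul_pow] at h1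
  exact h1.trans (mul_le_mul_of_nonneg_right h2 (sq_nonneg u))

theorem lip {w : E → M2} (hs : ContDiff ℝ ∞ w) (hp : Per w) :
    ∃ L : ℝ, 0 ≤ L ∧ ∀ x y, ‖w x - w y‖ ^ 2 ≤ L * ∑ i, sn (x i - y i) := by
  obtain ⟨C, hC⟩ := (isCompact_Icc (a := (0 : E)) (b := 1)).exists_bound_of_continuousOn
    (hs.continuous_fderiv (by simp)).continuousOn
  have hb : ∀ x, ‖fderiv ℝ w x‖ ≤ C := fun x => by
    obtain ⟨k, hk⟩ := exists_cube x
    have e : (fun z => w (z + fun i => (k i : ℝ))) = w := funext fun z => hp z k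
    have := hC _ hk
    rwa [← fderiv_comp_add_right, e] at this
  have hC0 : 0 ≤ C := (norm_nonneg _).trans (hb 0)
  refine ⟨C ^ 2, sq_nonneg C, fun x y => ?_⟩
  set y' : E := y + fun i => ((round (x i - y i) : ℤ) : ℝ) with hy'
  have h1 : ‖w x - w y'‖ ≤ C * ‖x - y'‖ :=
    convex_univ.norm_image_sub_le_of_norm_fderiv_le
      (fun z _ => hs.differentiable (by simp) z) (fun z _ => hb z) (mem_univ _) (mem_univ _)
  have hS : 0 ≤ ∑ i, sn (x i - y i) := Finset.sum_nonneg fun i _ => sn_nonneg _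
  have h2 : ‖x - y'‖ ≤ √(∑ i, sn (x i - y i)) := by
    refine (pi_norm_le_iff_of_nonneg (Real.sqrt_nonneg _)).2 fun i => ?_
    refine Real.abs_le_sqrt ?_
    have e : (x - y') i = x i - y i - round (x i - y i) := by
      simp only [hy', Pi.sub_apply, Pi.add_apply]
      ring
    have e2 : sn (x i - y i - round (x i - y i)) = sn (x i - y i) := by
      have := sn_int (x i - y i) (-round (x i - y i))
      rwa [Int.cast_neg, ← sub_eq_add_neg] at this
    rw [e]
    refine (low_Ker (abs_sub_round _)).trans (e2.le.trans ?_)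
    exact Finset.single_le_sum (f := fun i => sn (x i - y i)) (fun i _ => sn_nonneg _)
      (Finset.mem_univ i)
  rw [← hp y fun i => round (x i - y i), ← Real.sq_sqrt hS, ← mul_pow]
  exact pow_le_pow_left₀ (norm_nonneg _) (h1.trans (mul_le_mul_of_nonneg_left h2 hC0)) 2
theorem cont_Ker {e : ℝ} (he : 0 < e) :
    Continuous fun p : ℝ × ℝ => (sn p.2 + sn p.1 + e ^ 2)⁻¹ := by
  have hc := sn_smooth.continuous
  refine Continuous.inv₀ (by fun_prop) fun p => ?_
  have := sn_nonneg p.1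
  have := sn_nonneg p.2
  positivity

theorem inner_Ker {e v : ℝ} (he : 0 < e) (h0 : 0 ≤ v) (h1 : v ≤ 1) :
    v / (32 * v ^ 2 + e ^ 2) ≤ ∫ u in (0 : ℝ)..1, (sn u + sn v + e ^ 2)⁻¹ := by
  have hc : Continuous fun u => (sn u + sn v + e ^ 2)⁻¹ :=
    (cont_Ker he).comp (f := fun u : ℝ => ((v, u) : ℝ × ℝ)) (by fun_prop)
  have hpos : ∀ u, 0 < sn u + sn v + e ^ 2 := fun u => by
    have := sn_nonneg u
    have := sn_nonneg v
    positivity
  refine le_trans ?_ (intervalIntegral.integral_mono_interval le_rfl h0 h1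
    (Eventually.of_forall fun u => (inv_pos.2 (hpos u)).le) (hc.intervalIntegrable _ _))
  have := intervalIntegral.integral_mono_on (f := fun _ => (32 * v ^ 2 + e ^ 2)⁻¹) h0
    intervalIntegrable_const (hc.intervalIntegrable (μ := volume) _ _) fun u hu => by
      refine inv_anti₀ (hpos u) ?_
      have a1 := up_Ker u
      have a2 := up_Ker v
      have a3 : u ^ 2 ≤ v ^ 2 := pow_le_pow_left₀ hu.1 hu.2 2
      linarith
  rwa [intervalIntegral.integral_const, sub_zero, smul_eq_mul, ← div_eq_mul_inv] at this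

theorem logdiv (N : ℝ) :
    ∃ e : ℝ, 0 < e ∧ N ≤ ∫ v in (0 : ℝ)..1, ∫ u in (0 : ℝ)..1, (sn u + sn v + e ^ 2)⁻¹ := by
  set e := Real.exp (-32 * N) with he'
  have he : 0 < e := Real.exp_pos _
  refine ⟨e, he, ?_⟩
  have hpos : ∀ v : ℝ, 0 < 32 * v ^ 2 + e ^ 2 := fun v => by positivity
  have hc : Continuous fun v : ℝ => v / (32 * v ^ 2 + e ^ 2) :=
    continuous_id.div (by fun_prop) fun v => (hpos v).ne'
  have hc2 : Continuous fun v : ℝ => ∫ u in (0 : ℝ)..1, (sn u + sn v + e ^ 2)⁻¹ :=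
    intervalIntegral.continuous_parametric_intervalIntegral_of_continuous'
      (f := fun v u => (sn u + sn v + e ^ 2)⁻¹) (cont_Ker he) 0 1
  refine le_trans ?_ (intervalIntegral.integral_mono_on zero_le_one (hc.intervalIntegrable _ _)
    (hc2.intervalIntegrable _ _) fun v hv => inner_Ker he hv.1 hv.2)
  have hd : ∀ v ∈ uIcc (0 : ℝ) 1, HasDerivAt (fun v => Real.log (32 * v ^ 2 + e ^ 2) / 64)
      (v / (32 * v ^ 2 + e ^ 2)) v := fun v _ => by
    have h1 : HasDerivAt (fun v : ℝ => 32 * v ^ 2 + e ^ 2) (64 * v) v :=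
      (((hasDerivAt_pow 2 v).const_mul 32).add_const _).congr_deriv (by push_cast; ring)
    exact ((h1.log (hpos v).ne').div_const 64).congr_deriv (by ring)
  rw [intervalIntegral.integral_eq_sub_of_hasDerivAt hd (hc.intervalIntegrable _ _)]
  have h1 : 0 ≤ Real.log (32 * 1 ^ 2 + e ^ 2) := Real.log_nonneg (by nlinarith [sq_nonneg e])
  have h2 : Real.log (32 * 0 ^ 2 + e ^ 2) = -64 * N := by
    rw [zero_pow two_ne_zero, mul_zero, zero_add, Real.log_pow, he', Real.log_exp]
    push_cast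
    ring
  rw [h2]
  generalize Real.log (32 * 1 ^ 2 + e ^ 2) = a at h1 ⊢
  linarith
theorem bump {e : ℝ} (he : 0 < e) : ∃ g : ℝ → ℝ, ContDiff ℝ ∞ g ∧ (∀ u (k : ℤ), g (u + k) = g u) ∧
    (∀ u, 0 ≤ g u) ∧ (∀ u, g u ≠ 0 → sn u ≤ e ^ 2) ∧ 0 < ∫ u in (0 : ℝ)..1, g u := by
  have hs : ContDiff ℝ ∞ fun u => expNegInvGlue (e ^ 2 - sn u) :=
    expNegInvGlue.contDiff.comp (contDiff_const.sub sn_smooth)
  refine ⟨_, hs, fun u k => by simp only [sn_int], fun u => expNegInvGlue.nonneg _,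
    fun u h => ?_, intervalIntegral.integral_pos zero_lt_one hs.continuous.continuousOn
      (fun u _ => expNegInvGlue.nonneg _) ⟨0, left_mem_Icc.2 zero_le_one, ?_⟩⟩
  · by_contra h1
    exact h (expNegInvGlue.zero_of_nonpos (by linarith [not_le.1 h1]))
  · refine expNegInvGlue.pos_of_pos ?_
    simp only [sn, mul_zero, Real.sin_zero]
    nlinarith

end

end Vale.Agent.P247
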