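import Vale.Agent.P247.CurA
import Vale.Agent.P247.Ker

/-! P247 Cur: a closed positive current has nonnegative square. With rho z = g (z 0) g (z 1) / (sn (z 2) + sn (z 3) + e^2), I = int g, J = logdiv integral:
the double integral of rho (X k - X l) wedge equals I^2 J wedge s s (cur_const, cur_Av four times, periodic shifts), it is at least
- 2 C times the double integral of g g (X k - X l) xi k 2 3 = - 2 C I^2 s23 mass. Let J be large. Helper names end with _Cur. -/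

namespace Vale.Agent.P247

open MeasureTheory Set Filter Topology
open scoped ContDiff

noncomputable section

theorem shift_Cur {φ : ℝ → ℝ} (h : ∀ u, φ (u + 1) = φ u) (a : ℝ) :
    ∫ s in (0 : ℝ)..1, φ (a + s) = ∫ s in (0 : ℝ)..1, φ s := by
  rw [intervalIntegral.integral_comp_add_left, add_zero,
    Function.Periodic.intervalIntegral_add_eq (T := 1) h a 0, zero_add]

theorem spc_Cur {g : ℝ → ℝ} (hg : ContDiff ℝ ∞ g) (hp : ∀ u (k : ℤ), g (u + k) = g u) (i : Fin 4) :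
    SP fun x => g (x i) :=
  ⟨hg.comp (contDiff_apply ℝ ℝ i), fun x k => hp (x i) (k i)⟩

theorem one_Cur {g : ℝ → ℝ} (hp : ∀ u (k : ℤ), g (u + k) = g u) (u : ℝ) : g (u + 1) = g u := by
  simpa using hp u 1

theorem av01_Cur {g : ℝ → ℝ} (hp : ∀ u (k : ℤ), g (u + k) = g u) (h : ℝ → ℝ → ℝ) :
    Av 1 (Av 0 fun x => g (x 0) * g (x 1) * h (x 2) (x 3)) =
      fun x => (∫ u in (0 : ℝ)..1, g u) ^ 2 * h (x 2) (x 3) := by
  have e0 : (Av 0 fun x => g (x 0) * g (x 1) * h (x 2) (x 3)) =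
      fun x => (∫ u in (0 : ℝ)..1, g u) * g (x 1) * h (x 2) (x 3) := by
    funext x
    have : ∀ s : ℝ, g ((x + s • (Pi.single 0 1 : E)) 0) * g ((x + s • (Pi.single 0 1 : E)) 1) *
        h ((x + s • (Pi.single 0 1 : E)) 2) ((x + s • (Pi.single 0 1 : E)) 3) =
        g (x 0 + s) * g (x 1) * h (x 2) (x 3) := fun s => by simp
    simp only [Av, this]
    rw [intervalIntegral.integral_mul_const, intervalIntegral.integral_mul_const,
      shift_Cur (one_Cur hp)]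
  rw [e0]
  funext x
  have : ∀ s : ℝ, (∫ u in (0 : ℝ)..1, g u) * g ((x + s • (Pi.single 1 1 : E)) 1) *
      h ((x + s • (Pi.single 1 1 : E)) 2) ((x + s • (Pi.single 1 1 : E)) 3) =
      (∫ u in (0 : ℝ)..1, g u) * g (x 1 + s) * h (x 2) (x 3) := fun s => by simp
  simp only [Av, this]
  rw [intervalIntegral.integral_mul_const, intervalIntegral.integral_const_mul,
    shift_Cur (one_Cur hp), sq]

theorem av23_Cur (c e : ℝ) :
    Av 3 (Av 2 fun x => c * (sn (x 2) + sn (x 3) + e ^ 2)⁻¹) =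
      fun _ => c * ∫ v in (0 : ℝ)..1, ∫ u in (0 : ℝ)..1, (sn u + sn v + e ^ 2)⁻¹ := by
  have e0 : (Av 2 fun x => c * (sn (x 2) + sn (x 3) + e ^ 2)⁻¹) =
      fun x => c * ∫ u in (0 : ℝ)..1, (sn u + sn (x 3) + e ^ 2)⁻¹ := by
    funext x
    have : ∀ s : ℝ, c * (sn ((x + s • (Pi.single 2 1 : E)) 2) +
        sn ((x + s • (Pi.single 2 1 : E)) 3) + e ^ 2)⁻¹ =
        c * (sn (x 2 + s) + sn (x 3) + e ^ 2)⁻¹ := fun s => by simp
    simp only [Av, this]
    rw [intervalIntegral.integral_const_mul,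
      shift_Cur (φ := fun u => (sn u + sn (x 3) + e ^ 2)⁻¹) fun u => by
        simp only [one_Cur sn_int]]
  rw [e0]
  funext x
  have : ∀ s : ℝ, c * ∫ u in (0 : ℝ)..1, (sn u + sn ((x + s • (Pi.single 3 1 : E)) 3) + e ^ 2)⁻¹ =
      c * ∫ u in (0 : ℝ)..1, (sn u + sn (x 3 + s) + e ^ 2)⁻¹ := fun s => by simp
  simp only [Av, this]
  rw [intervalIntegral.integral_const_mul,
    shift_Cur (φ := fun v => ∫ u in (0 : ℝ)..1, (sn u + sn v + e ^ 2)⁻¹) fun v => by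
      simp only [one_Cur sn_int]]

theorem pd_zero_Cur {G : E → ℝ} (hG : SP G) {i : Fin 4}
    (h : ∀ (x : E) (s : ℝ), G (x + s • Pi.single i 1) = G x) (x : E) : pd i G x = 0 := by
  have h1 := hasDerivAt_pd hG i x 0
  simp only [h, zero_smul, add_zero] at h1
  exact h1.unique (hasDerivAt_const 0 (G x))

theorem ker_Cur {g : ℝ → ℝ} {e : ℝ} (he : 0 < e) (h0 : ∀ u, 0 ≤ g u)
    (h1 : ∀ u, g u ≠ 0 → sn u ≤ e ^ 2) (z : E) :
    g (z 0) * g (z 1) * (sn (z 2) + sn (z 3) + e ^ 2)⁻¹ * ∑ i, sn (z i) ≤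
      2 * (g (z 0) * g (z 1) * 1) := by
  have hd : 0 < sn (z 2) + sn (z 3) + e ^ 2 := by
    have := sn_nonneg (z 2)
    have := sn_nonneg (z 3)
    positivity
  by_cases h : g (z 0) * g (z 1) = 0
  · rw [h]
    simp
  · have a0 := h1 _ (left_ne_zero_of_mul h)
    have a1 := h1 _ (right_ne_zero_of_mul h)
    have h2 : (sn (z 2) + sn (z 3) + e ^ 2)⁻¹ * ∑ i, sn (z i) ≤ 2 := by
      rw [inv_mul_le_iff₀ hd, Fin.sum_univ_four]
      linarith [sn_nonneg (z 2), sn_nonneg (z 3)]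
    have h3 := mul_le_mul_of_nonneg_left h2 (mul_nonneg (h0 (z 0)) (h0 (z 1)))
    linarith

variable {K : Type} [TopologicalSpace K] [CompactSpace K] [SecondCountableTopology K]
  [MeasurableSpace K] [BorelSpace K] (ν : Measure K) [IsFiniteMeasure ν]

omit [SecondCountableTopology K] in
theorem int_Cur {f : K → ℝ} (hf : Continuous f) : Integrable f ν :=
  hf.integrable_of_hasCompactSupport (HasCompactSupport.of_compactSpace f)

theorem wedge_Cur {ξ : K → M2} (hξ : Continuous ξ) :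
    ∫ q : K × K, wedge (ξ q.1) (ξ q.2) ∂(ν.prod ν) =
      wedge (fun i j => ∫ k, ξ k i j ∂ν) (fun i j => ∫ k, ξ k i j ∂ν) := by
  have hi : ∀ a b c d, Integrable (fun q : K × K => ξ q.1 a b * ξ q.2 c d) (ν.prod ν) :=
    fun a b c d => int_Cur _ (by fun_prop)
  have he : ∀ a b c d, ∫ q : K × K, ξ q.1 a b * ξ q.2 c d ∂(ν.prod ν) =
      (∫ k, ξ k a b ∂ν) * ∫ k, ξ k c d ∂ν :=
    fun a b c d => integral_prod_mul (fun k => ξ k a b) fun k => ξ k c d
  have i1 := (hi 0 1 2 3).sub (hi 0 2 1 3)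
  have i2 := i1.add (hi 0 3 1 2)
  have i3 := i2.add (hi 1 2 0 3)
  have i4 := i3.sub (hi 1 3 0 2)
  have e5 := integral_add i4 (hi 2 3 0 1)
  have e4 := integral_sub i3 (hi 1 3 0 2)
  have e3 := integral_add i2 (hi 1 2 0 3)
  have e2 := integral_add i1 (hi 0 3 1 2)
  have e1 := integral_sub (hi 0 1 2 3) (hi 0 2 1 3)
  simp only [Pi.add_apply, Pi.sub_apply] at e5 e4 e3 e2
  simp only [wedge]
  rw [e5, e4, e3, e2, e1, he, he, he, he, he, he]

theorem up_Cur {X : K → E} {ξ : K → M2} (hX : Continuous X) (hξ : Continuous ξ)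
    (hs : ∀ k, Skew (ξ k)) (hcl : ∀ a, IsForm1 a → ∫ k, wedge (ξ k) (d1 a (X k)) ∂ν = 0)
    {ρ : E → ℝ} (hρ : SP ρ) {c : ℝ} (hc : Av 3 (Av 2 (Av 1 (Av 0 ρ))) = fun _ => c) :
    ∫ q : K × K, ρ (X q.1 - X q.2) * wedge (ξ q.1) (ξ q.2) ∂(ν.prod ν) =
      c * wedge (fun i j => ∫ k, ξ k i j ∂ν) (fun i j => ∫ k, ξ k i j ∂ν) := by
  have hX' : Continuous fun q : K × K => X q.1 - X q.2 := by fun_prop
  have hF : Continuous fun q : K × K => wedge (ξ q.1) (ξ q.2) :=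
    continuous_wedge.comp ((hξ.comp continuous_fst).prodMk (hξ.comp continuous_snd))
  have a0 := cur_const (ν.prod ν) hX' hF hρ fun i z => cur_pd ν hX hξ hs hcl hρ i z
  have a1 := cur_Av (ν.prod ν) hX' hF hρ.smooth.continuous a0 0
  have a2 := cur_Av (ν.prod ν) hX' hF (hρ.Av 0).smooth.continuous a1 1
  have a3 := cur_Av (ν.prod ν) hX' hF ((hρ.Av 0).Av 1).smooth.continuous a2 2
  have a4 := cur_Av (ν.prod ν) hX' hF (((hρ.Av 0).Av 1).Av 2).smooth.continuous a3 3 0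
  rw [← a4, hc, integral_const_mul, wedge_Cur ν hξ]

theorem low_Cur {X : K → E} {ξ : K → M2} (hX : Continuous X) (hξ : Continuous ξ)
    (hcl : ∀ a, IsForm1 a → ∫ k, wedge (ξ k) (d1 a (X k)) ∂ν = 0)
    {G : E → ℝ} (hG : SP G) (h2 : ∀ x, pd 2 G x = 0) (h3 : ∀ x, pd 3 G x = 0) {c : ℝ}
    (hc : Av 1 (Av 0 G) = fun _ => c) :
    ∫ q : K × K, G (X q.1 - X q.2) * ξ q.1 2 3 ∂(ν.prod ν) =
      c * (ν.real univ * ∫ k, ξ k 2 3 ∂ν) := by
  have hF : Continuous fun k => ξ k 2 3 := by fun_prop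
  have hGc := hG.smooth.continuous
  have a0 := cur_const ν hX hF hG fun i z => cur_pd_hor ν hX hξ hcl hG h2 h3 i z
  have a1 := cur_Av ν hX hF hGc a0 0
  have a2 := cur_Av ν hX hF (hG.Av 0).smooth.continuous a1 1 0
  rw [hc, integral_const_mul] at a2
  rw [integral_prod_symm _ (int_Cur _ (by fun_prop))]
  simp only [sub_eq_add_neg, a0, ← a2]
  rw [integral_const, smul_eq_mul]
  ring

theorem cur_main {X : K → E} {ξ : K → M2} (hX : Continuous X) (hξ : Continuous ξ)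
    (hs : ∀ k, Skew (ξ k)) (hcl : ∀ a, IsForm1 a → ∫ k, wedge (ξ k) (d1 a (X k)) ∂ν = 0)
    (h0 : ∀ k, 0 ≤ ξ k 2 3) {C : ℝ} (hC : 0 ≤ C)
    (hpt : ∀ k l, -(C * (∑ i, sn (X k i - X l i)) * ξ k 2 3) ≤ wedge (ξ k) (ξ l)) :
    0 ≤ wedge (fun i j => ∫ k, ξ k i j ∂ν) (fun i j => ∫ k, ξ k i j ∂ν) := by
  obtain ⟨W, hW⟩ : ∃ W, W = wedge (fun i j => ∫ k, ξ k i j ∂ν) (fun i j => ∫ k, ξ k i j ∂ν) :=
    ⟨_, rfl⟩
  obtain ⟨m, hm⟩ : ∃ m, m = ν.real univ * ∫ k, ξ k 2 3 ∂ν := ⟨_, rfl⟩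
  rw [← hW]
  by_contra hneg
  have hW0 : 0 < -W := by linarith [not_le.1 hneg]
  obtain ⟨e, he, hJ⟩ := logdiv (2 * C * m / -W + 1)
  obtain ⟨g, g1, g2, g3, g4, g5⟩ := bump he
  have hd : ∀ x : E, 0 < sn (x 2) + sn (x 3) + e ^ 2 := fun x => by
    have := sn_nonneg (x 2)
    have := sn_nonneg (x 3)
    positivity
  have hgg := (spc_Cur g1 g2 0).mul (spc_Cur g1 g2 1)
  have hG : SP fun x => g (x 0) * g (x 1) * 1 := hgg.mul (sp_const 1)
  have hρ : SP fun x => g (x 0) * g (x 1) * (sn (x 2) + sn (x 3) + e ^ 2)⁻¹ := by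
    have := hgg.div (((spc_Cur sn_smooth sn_int 2).add (spc_Cur sn_smooth sn_int 3)).add
      (sp_const (e ^ 2))) fun x => (hd x).ne'
    simpa only [div_eq_mul_inv] using this
  have e1 := up_Cur ν hX hξ hs hcl hρ (by
    rw [av01_Cur g2 fun u v => (sn u + sn v + e ^ 2)⁻¹, av23_Cur])
  have e2 := low_Cur ν hX hξ hcl hG (pd_zero_Cur hG fun x s => by simp)
    (pd_zero_Cur hG fun x s => by simp) (av01_Cur g2 fun _ _ => 1)
  rw [← hW] at e1
  rw [← hm] at e2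
  have hρc := hρ.smooth.continuous
  have hGc := hG.smooth.continuous
  have hF : Continuous fun q : K × K => wedge (ξ q.1) (ξ q.2) :=
    continuous_wedge.comp ((hξ.comp continuous_fst).prodMk (hξ.comp continuous_snd))
  have hX' : Continuous fun q : K × K => X q.1 - X q.2 := by fun_prop
  have h23 : Continuous fun q : K × K => ξ q.1 2 3 := by fun_prop
  have hle := integral_mono ((int_Cur (ν.prod ν) ((hGc.comp hX').mul h23)).const_mul (-(2 * C)))
    (int_Cur (ν.prod ν) ((hρc.comp hX').mul hF)) fun q => by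
      have b1 := ker_Cur he g3 g4 (X q.1 - X q.2)
      have b2 : 0 ≤ g ((X q.1 - X q.2) 0) * g ((X q.1 - X q.2) 1) *
          (sn ((X q.1 - X q.2) 2) + sn ((X q.1 - X q.2) 3) + e ^ 2)⁻¹ :=
        mul_nonneg (mul_nonneg (g3 _) (g3 _)) (inv_pos.2 (hd _)).le
      have b3 := mul_le_mul_of_nonneg_left (hpt q.1 q.2) b2
      have b4 := mul_le_mul_of_nonneg_left b1 (mul_nonneg hC (h0 q.1))
      simp only [Pi.sub_apply, Function.comp_apply, Pi.mul_apply] at b3 b4 ⊢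
      linarith
  simp only [Function.comp_apply, Pi.mul_apply] at hle
  rw [integral_const_mul, e1, e2] at hle
  have hI : 0 < (∫ u in (0 : ℝ)..1, g u) ^ 2 := pow_pos g5 2
  generalize (∫ u in (0 : ℝ)..1, g u) ^ 2 = I at hle hI
  generalize ∫ v in (0 : ℝ)..1, ∫ u in (0 : ℝ)..1, (sn u + sn v + e ^ 2)⁻¹ = J at hle hJ
  have c1 : -(2 * C * m) ≤ J * W := by
    refine le_of_mul_le_mul_left ?_ hI
    linarith
  have c2 := mul_le_mul_of_nonneg_right hJ hW0.le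
  rw [add_mul, div_mul_cancel₀ _ hW0.ne'] at c2
  linarith

end

end Vale.Agent.P247
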