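import Vale.Agent.P247.Ops
import Vale.Agent.P247.Alg

/-! P247 CurA: translation invariance for closed currents. cur_line: differentiate under the integral (compact space, continuous integrands).
cur_Av: Fubini. cur_pd: with q = d rho, q i * wedge s t = sum j, s i j * wedge t (q wedge e j) + sum j, t i j * wedge s (q wedge e j); integrate the first sum in l
first (test form y ↦ rho (X k - y + z) e j, periodic), the second in k first. cur_pd_hor: test forms y ↦ g (y + z) e 1 and e 0. Helper names end with _CurA. -/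

namespace Vale.Agent.P247

open MeasureTheory Set Filter Topology
open scoped ContDiff

noncomputable section

variable {K : Type} [TopologicalSpace K] [CompactSpace K] [SecondCountableTopology K]
  [MeasurableSpace K] [BorelSpace K] (ν : Measure K) [IsFiniteMeasure ν]

theorem int_CurA {Y : Type} [TopologicalSpace Y] [CompactSpace Y] [MeasurableSpace Y]
    [OpensMeasurableSpace Y] (μ : Measure Y) [IsFiniteMeasure μ] {f : Y → ℝ} (hf : Continuous f) :
    Integrable f μ :=
  integrableOn_univ.1 (hf.continuousOn.integrableOn_compact' isCompact_univ MeasurableSet.univ)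

theorem swap_CurA {f : ℝ → K → ℝ} (hf : Continuous fun p : ℝ × K => f p.1 p.2) (a b : ℝ) :
    ∫ t in a..b, ∫ k, f t k ∂ν = ∫ k, (∫ t in a..b, f t k) ∂ν := by
  refine intervalIntegral_integral_swap ?_
  rw [Measure.restrict_prod_eq_prod_univ]
  have h1 : IntegrableOn (fun p : ℝ × K => f p.1 p.2) (uIcc a b ×ˢ univ) (volume.prod ν) :=
    hf.continuousOn.integrableOn_compact' (isCompact_uIcc.prod isCompact_univ)
      (measurableSet_uIcc.prod MeasurableSet.univ)
  exact h1.mono_set (prod_mono uIoc_subset_uIcc subset_rfl)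

theorem cur_const {X : K → E} {F : K → ℝ} (hX : Continuous X) (hF : Continuous F) {ρ : E → ℝ}
    (hρ : SP ρ) (h : ∀ i z, ∫ k, pd i ρ (X k + z) * F k ∂ν = 0) (z : E) :
    ∫ k, ρ (X k + z) * F k ∂ν = ∫ k, ρ (X k) * F k ∂ν := by
  have hc := hρ.smooth.continuous
  have step : ∀ (i : Fin 4) (x : E) (s : ℝ),
      ∫ k, ρ (X k + (x + s • Pi.single i 1)) * F k ∂ν = ∫ k, ρ (X k + x) * F k ∂ν := by
    intro i x s
    have hp := (hρ.pd i).smooth.continuous
    have e1 : ∀ k, ρ (X k + (x + s • Pi.single i 1)) * F k - ρ (X k + x) * F k =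
        ∫ t in (0 : ℝ)..s, pd i ρ (X k + (x + t • Pi.single i 1)) * F k := by
      intro k
      rw [intervalIntegral.integral_mul_const]
      simp only [← add_assoc]
      rw [intervalIntegral.integral_eq_sub_of_hasDerivAt
        (fun t _ => hasDerivAt_pd hρ i (X k + x) t) (Continuous.intervalIntegrable (by fun_prop) _ _)]
      simp only [zero_smul, add_zero]
      ring
    rw [← sub_eq_zero, ← integral_sub (int_CurA ν (by fun_prop)) (int_CurA ν (by fun_prop))]
    simp only [e1]
    refine (swap_CurA ν (f := fun t k => pd i ρ (X k + (x + t • Pi.single i 1)) * F k)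
      (by fun_prop) 0 s).symm.trans ?_
    simp only [h, intervalIntegral.integral_zero]
  have hz : z = 0 + z 0 • Pi.single 0 1 + z 1 • Pi.single 1 1 + z 2 • Pi.single 2 1 +
      z 3 • Pi.single 3 1 := by
    funext i
    fin_cases i <;> simp
  rw [hz, step, step, step, step]
  simp only [add_zero]

theorem cur_Av {X : K → E} {F : K → ℝ} (hX : Continuous X) (hF : Continuous F) {ρ : E → ℝ}
    (hρ : Continuous ρ) {c : ℝ} (h : ∀ z, ∫ k, ρ (X k + z) * F k ∂ν = c) (i : Fin 4) (z : E) :
    ∫ k, Av i ρ (X k + z) * F k ∂ν = c := by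
  have e1 : ∀ k, Av i ρ (X k + z) * F k =
      ∫ t in (0 : ℝ)..1, ρ (X k + (z + t • Pi.single i 1)) * F k := by
    intro k
    rw [intervalIntegral.integral_mul_const]
    simp only [← add_assoc]
    rfl
  simp only [e1]
  refine (swap_CurA ν (f := fun t k => ρ (X k + (z + t • Pi.single i 1)) * F k)
    (by fun_prop) 0 1).symm.trans ?_
  simp [h]

/-- The wedge product of a covector with a coordinate covector. -/
def we_CurA (q : Fin 4 → ℝ) (j : Fin 4) : M2 :=
  fun a b => q a * (if b = j then 1 else 0) - q b * (if a = j then 1 else 0)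

theorem cont_we_CurA (j : Fin 4) : Continuous fun q : Fin 4 → ℝ => we_CurA q j := by
  unfold we_CurA
  fun_prop

theorem five_CurA {s t : M2} (hs : Skew s) (ht : Skew t) (q : Fin 4 → ℝ) (i : Fin 4) :
    q i * wedge s t = ∑ j, (s i j * wedge t (we_CurA q j) + t i j * wedge s (we_CurA q j)) := by
  have s0 : ∀ j, s j j = 0 := fun j => by linarith [hs j j]
  have t0 : ∀ j, t j j = 0 := fun j => by linarith [ht j j]
  fin_cases i <;>
    simp [Fin.sum_univ_four, wedge, we_CurA, s0, t0, hs 1 0, hs 2 0, hs 3 0, hs 2 1, hs 3 1,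
      hs 3 2, ht 1 0, ht 2 0, ht 3 0, ht 2 1, ht 3 1, ht 3 2] <;> ring

omit [TopologicalSpace K] [CompactSpace K] [SecondCountableTopology K] [BorelSpace K]
  [IsFiniteMeasure ν] in
theorem test_CurA {X : K → E} {ξ : K → M2}
    (hcl : ∀ a, IsForm1 a → ∫ k, wedge (ξ k) (d1 a (X k)) ∂ν = 0) {g : E → ℝ} (hg : SP g)
    (j : Fin 4) : ∫ k, wedge (ξ k) (we_CurA (fun a => pd a g (X k)) j) ∂ν = 0 := by
  have h1 : IsForm1 fun y b => (if b = j then (1 : ℝ) else 0) * g y :=
    isForm1_of fun b => (sp_const _).mul hg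
  have h2 : ∀ x, d1 (fun y b => (if b = j then (1 : ℝ) else 0) * g y) x =
      we_CurA (fun a => pd a g x) j := by
    intro x
    funext a b
    simp only [d1, we_CurA, pd_cmul hg]
    ring
  have h3 := hcl _ h1
  simpa only [h2] using h3

omit [TopologicalSpace K] [CompactSpace K] [SecondCountableTopology K] [BorelSpace K]
  [IsFiniteMeasure ν] in
theorem test_add_CurA {X : K → E} {ξ : K → M2}
    (hcl : ∀ a, IsForm1 a → ∫ k, wedge (ξ k) (d1 a (X k)) ∂ν = 0) {g : E → ℝ} (hg : SP g)
    (c : E) (j : Fin 4) : ∫ k, wedge (ξ k) (we_CurA (fun a => pd a g (X k + c)) j) ∂ν = 0 := by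
  have h1 : SP fun y => g (y + c) :=
    ⟨hg.smooth.comp (contDiff_id.add contDiff_const), fun x k => by
      show g (x + _ + c) = g (x + c)
      rw [add_right_comm, hg.per]⟩
  have h2 : ∀ a x, pd a (fun y => g (y + c)) x = pd a g (x + c) := fun a x => by
    simp only [pd, fderiv_comp_add_right]
  have h3 := test_CurA ν hcl h1 j
  simpa only [h2] using h3

omit [TopologicalSpace K] [CompactSpace K] [SecondCountableTopology K] [BorelSpace K]
  [IsFiniteMeasure ν] in
theorem test_sub_CurA {X : K → E} {ξ : K → M2}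
    (hcl : ∀ a, IsForm1 a → ∫ k, wedge (ξ k) (d1 a (X k)) ∂ν = 0) {g : E → ℝ} (hg : SP g)
    (c : E) (j : Fin 4) : ∫ k, wedge (ξ k) (we_CurA (fun a => pd a g (c - X k)) j) ∂ν = 0 := by
  have h1 : SP fun y => g (c - y) :=
    ⟨hg.smooth.comp (contDiff_const.sub contDiff_id), fun x k => by
      show g (c - (x + fun i => (k i : ℝ))) = g (c - x)
      rw [← hg.per _ k]
      congr 1
      abel⟩
  have h2 : ∀ a x, pd a (fun y => g (c - y)) x = -pd a g (c - x) := fun a x => by
    have d : HasFDerivAt (fun y => g (c - y))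
        ((fderiv ℝ g (c - x)).comp (-ContinuousLinearMap.id ℝ E)) x :=
      (hg.smooth.differentiable (by simp) (c - x)).hasFDerivAt.comp x
        ((hasFDerivAt_id x).const_sub c)
    simp [pd, d.fderiv]
  have h3 := test_CurA ν hcl h1 j
  have h4 : ∀ k, wedge (ξ k) (we_CurA (fun a => pd a (fun y => g (c - y)) (X k)) j) =
      -wedge (ξ k) (we_CurA (fun a => pd a g (c - X k)) j) := fun k => by
    simp only [h2, wedge, we_CurA]
    ring
  simp only [h4, integral_neg] at h3
  exact neg_eq_zero.1 h3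

theorem cur_pd {X : K → E} {ξ : K → M2} (hX : Continuous X) (hξ : Continuous ξ)
    (hs : ∀ k, Skew (ξ k)) (hcl : ∀ a, IsForm1 a → ∫ k, wedge (ξ k) (d1 a (X k)) ∂ν = 0)
    {ρ : E → ℝ} (hρ : SP ρ) (i : Fin 4) (z : E) :
    ∫ q : K × K, pd i ρ (X q.1 - X q.2 + z) * wedge (ξ q.1) (ξ q.2) ∂(ν.prod ν) = 0 := by
  have hq : Continuous fun (q : K × K) (a : Fin 4) => pd a ρ (X q.1 - X q.2 + z) :=
    continuous_pi fun a => (hρ.pd a).smooth.continuous.comp (by fun_prop)
  have c1 : ∀ j, Continuous fun q : K × K =>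
      ξ q.1 i j * wedge (ξ q.2) (we_CurA (fun a => pd a ρ (X q.1 - X q.2 + z)) j) := fun j =>
    Continuous.mul (by fun_prop) (continuous_wedge.comp
      ((hξ.comp continuous_snd).prodMk ((cont_we_CurA j).comp hq)))
  have c2 : ∀ j, Continuous fun q : K × K =>
      ξ q.2 i j * wedge (ξ q.1) (we_CurA (fun a => pd a ρ (X q.1 - X q.2 + z)) j) := fun j =>
    Continuous.mul (by fun_prop) (continuous_wedge.comp
      ((hξ.comp continuous_fst).prodMk ((cont_we_CurA j).comp hq)))
  have e : ∀ q : K × K, pd i ρ (X q.1 - X q.2 + z) * wedge (ξ q.1) (ξ q.2) =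
      ∑ j, (ξ q.1 i j * wedge (ξ q.2) (we_CurA (fun a => pd a ρ (X q.1 - X q.2 + z)) j) +
        ξ q.2 i j * wedge (ξ q.1) (we_CurA (fun a => pd a ρ (X q.1 - X q.2 + z)) j)) :=
    fun q => five_CurA (hs q.1) (hs q.2) (fun a => pd a ρ (X q.1 - X q.2 + z)) i
  simp only [e]
  rw [integral_finsetSum _ fun j _ => int_CurA _ ((c1 j).fun_add (c2 j))]
  refine Finset.sum_eq_zero fun j _ => ?_
  rw [integral_add (int_CurA _ (c1 j)) (int_CurA _ (c2 j)), integral_prod _ (int_CurA _ (c1 j)),
    integral_prod_symm _ (int_CurA _ (c2 j))]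
  have z1 : ∀ k, ∫ l, ξ k i j * wedge (ξ l) (we_CurA (fun a => pd a ρ (X k - X l + z)) j) ∂ν
      = 0 := by
    intro k
    have e2 : ∀ l, X k - X l + z = X k + z - X l := fun l => by abel
    simp only [e2]
    rw [integral_const_mul, test_sub_CurA ν hcl hρ (X k + z) j, mul_zero]
  have z2 : ∀ l, ∫ k, ξ l i j * wedge (ξ k) (we_CurA (fun a => pd a ρ (X k - X l + z)) j) ∂ν
      = 0 := by
    intro l
    have e2 : ∀ k, X k - X l + z = X k + (z - X l) := fun k => by abel
    simp only [e2]
    rw [integral_const_mul, test_add_CurA ν hcl hρ (z - X l) j, mul_zero]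
  simp only [z1, z2, integral_zero, add_zero]

theorem cur_pd_hor {X : K → E} {ξ : K → M2} (hX : Continuous X) (hξ : Continuous ξ)
    (hcl : ∀ a, IsForm1 a → ∫ k, wedge (ξ k) (d1 a (X k)) ∂ν = 0)
    {g : E → ℝ} (hg : SP g) (h2 : ∀ x, pd 2 g x = 0) (h3 : ∀ x, pd 3 g x = 0) (i : Fin 4) (z : E) :
    ∫ k, pd i g (X k + z) * ξ k 2 3 ∂ν = 0 := by
  have t1 := test_add_CurA ν hcl hg z 1
  have t0 := test_add_CurA ν hcl hg z 0
  have e1 : ∀ k, wedge (ξ k) (we_CurA (fun a => pd a g (X k + z)) 1) =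
      pd 0 g (X k + z) * ξ k 2 3 := fun k => by
    simp [wedge, we_CurA, h2, h3, mul_comm]
  have e0 : ∀ k, wedge (ξ k) (we_CurA (fun a => pd a g (X k + z)) 0) =
      -(pd 1 g (X k + z) * ξ k 2 3) := fun k => by
    simp [wedge, we_CurA, h2, h3, mul_comm]
  simp only [e1] at t1
  simp only [e0, integral_neg, neg_eq_zero] at t0
  fin_cases i
  · exact t1
  · exact t0
  · simp [h2]
  · simp [h3]

end

end Vale.Agent.P247
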