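import Vale.Agent.P247.Stmt

/-! P247 Defs: working definitions (owner helper49, overview in notes/P247.md). FROZEN. -/

namespace Vale.Agent.P247

open MeasureTheory Set
open scoped ContDiff

noncomputable section

/-- Smooth periodic function. -/
structure SP (f : E → ℝ) : Prop where
  smooth : ContDiff ℝ ∞ f
  per : Per f

def Skew (a : M2) : Prop := ∀ i j, a i j = -a j i

def Pos2 (b c : M2) : Prop :=
  ∀ q r : ℝ, q ≠ 0 ∨ r ≠ 0 → 0 < wedge (q • b + r • c) (q • b + r • c)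

def Pos3 (a b c : M2) : Prop :=
  ∀ p q r : ℝ, p ≠ 0 ∨ q ≠ 0 ∨ r ≠ 0 → 0 < wedge (p • a + q • b + r • c) (p • a + q • b + r • c)

/-- Square norm of the mixed part. -/
def mix (a : M2) : ℝ := a 0 2 ^ 2 + a 0 3 ^ 2 + a 1 2 ^ 2 + a 1 3 ^ 2

/-- The forward cone orthogonal to `b` and `c`. -/
structure Cone (L : ℝ) (b c ξ : M2) : Prop where
  skew : Skew ξ
  sq : 0 ≤ wedge ξ ξ
  ob : wedge ξ b = 0
  oc : wedge ξ c = 0
  hor : 0 ≤ ξ 2 3
  fwd : 0 ≤ ξ 0 1 + L * ξ 2 3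

/-- `a` is positive on the forward cone. -/
def Tame (L : ℝ) (a b c : M2) : Prop := ∀ ξ, Cone L b c ξ → ξ ≠ 0 → 0 < wedge ξ a

/-- Quantitative positivity of a pair that vanishes on the fibre. -/
structure Fins (k κ R : ℝ) (b c : M2) : Prop where
  b23 : b 2 3 = 0
  c23 : c 2 3 = 0
  bR : |b 0 1| ≤ R
  cR : |c 0 1| ≤ R
  le : ∀ ζ : M2, ζ 2 3 = 0 → wedge ζ ζ ≤ k * (wedge ζ b ^ 2 + wedge ζ c ^ 2) - κ * mix ζ

/-- The quadratic form that detects real eigenvectors. -/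
def kap (b c : M2) (u v : ℝ) : ℝ :=
  (u * b 0 2 + v * b 1 2) * (u * c 0 3 + v * c 1 3) - (u * b 0 3 + v * b 1 3) * (u * c 0 2 + v * c 1 2)

/-- Average in the direction `i`. -/
def Av (i : Fin 4) (f : E → ℝ) (x : E) : ℝ := ∫ s in (0 : ℝ)..1, f (x + s • Pi.single i 1)

/-- Homotopy operator in the direction `i`. -/
def Ho (i : Fin 4) (f : E → ℝ) (x : E) : ℝ :=
  ∫ s in (0 : ℝ)..1, (s - 1) * f (x + s • Pi.single i 1)

/-- Mean of a two-form. -/
def avg (w : E → M2) : M2 := fun i j => ∫ x in Icc (0 : E) 1, w x i j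

/-- Pull-back by a matrix. -/
def pb (G c : M2) : M2 := fun a b => ∑ i, ∑ j, G i a * G j b * c i j

/-- Jacobian matrix of `id + p`. -/
def jac (p : E → Fin 4 → ℝ) (x : E) : M2 :=
  fun i a => (if i = a then 1 else 0) + pd a (fun y => p y i) x

/-- Pull-back of a constant form by `id + p`. -/
def pbf (c : M2) (p : E → Fin 4 → ℝ) (x : E) : M2 := pb (jac p x) c

/-- Block triangular matrix. -/
structure Blk (G : M2) : Prop where
  h02 : G 0 2 = 0
  h03 : G 0 3 = 0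
  h12 : G 1 2 = 0
  h13 : G 1 3 = 0

def detB (G : M2) : ℝ := (G 0 0 * G 1 1 - G 0 1 * G 1 0) * (G 2 2 * G 3 3 - G 2 3 * G 3 2)

/-- Same mixed part. -/
structure SameMix (a b : M2) : Prop where
  h02 : a 0 2 = b 0 2
  h03 : a 0 3 = b 0 3
  h12 : a 1 2 = b 1 2
  h13 : a 1 3 = b 1 3

/-- Linear path. -/
def lin (b0 b1 : E → M2) (t : ℝ) (x : E) : M2 := (1 - t) • b0 x + t • b1 x

def sn (u : ℝ) : ℝ := Real.sin (Real.pi * u) ^ 2

end

end Vale.Agent.P247
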