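import Vale.Agent.P247.Poin
import Vale.Agent.P247.Alg

/-! P247 Frame: pull-backs of constant forms by id + p. pbf_eq: gamma b = sum c i j (p i [j = b] + p i * pd b (p j) / 2).
potential: a from gauge, c = avg w, P j q = c j q + pd j (a q) (j = 0, 1; q = 2, 3) is constant along the fibres. D = P02 P13 - P03 P12 never vanishes: if
v0 P0q + v1 P1q = 0 at x, take a maximum point y of v0 a0 + v1 a1 on the fibre through x; there v0 w0q + v1 w1q = 0, so wedge w w = 0.
p0 = (c13 a2 - c12 a3) / det c, p1 = (c02 a3 - c03 a2) / det c, p2 = (P03 a1 - P13 a0) / D, p3 = (P12 a0 - P02 a1) / D; differentiate the identities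
c0q p0 + c1q p1 = a q and P j2 p2 + P j3 p3 = - a j. Helper names end with _Frame. -/

namespace Vale.Agent.P247

open MeasureTheory Set Filter Topology
open scoped ContDiff

noncomputable section

variable {G c c' : M2} {p : E → Fin 4 → ℝ} {w : E → M2}

theorem pb_Frame (G : M2) (hc : Skew c) (a b : Fin 4) : pb G c a b =
    (G 0 a * G 1 b - G 1 a * G 0 b) * c 0 1 + (G 0 a * G 2 b - G 2 a * G 0 b) * c 0 2 +
    (G 0 a * G 3 b - G 3 a * G 0 b) * c 0 3 + (G 1 a * G 2 b - G 2 a * G 1 b) * c 1 2 +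
    (G 1 a * G 3 b - G 3 a * G 1 b) * c 1 3 + (G 2 a * G 3 b - G 3 a * G 2 b) * c 2 3 := by
  have z : ∀ i, c i i = 0 := fun i => by linarith [hc i i]
  simp only [pb, Fin.sum_univ_four, z]
  rw [hc 1 0, hc 2 0, hc 3 0, hc 2 1, hc 3 1, hc 3 2]
  ring

theorem wedge_pb (h : Blk G) (hc : Skew c) (hc' : Skew c') :
    wedge (pb G c) (pb G c') = detB G * wedge c c' := by
  simp only [wedge, pb_Frame G hc, pb_Frame G hc', detB, h.h02, h.h03, h.h12, h.h13]
  ring

theorem pb_23 (h : Blk G) (hc : Skew c) :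
    pb G c 2 3 = (G 2 2 * G 3 3 - G 2 3 * G 3 2) * c 2 3 := by
  rw [pb_Frame G hc, h.h02, h.h03, h.h12, h.h13]
  ring

theorem alg_Frame (hc : Skew c) (P : M2) (q H : Fin 4 → ℝ) (a b : Fin 4) :
    ∑ i, ∑ j, ((if i = a then 1 else 0) + P i a) * ((if j = b then 1 else 0) + P j b) * c i j =
      c a b + ((∑ i, c i b * P i a + ∑ i, ∑ j, c i j / 2 * (P i a * P j b + q i * H j)) -
        (∑ i, c i a * P i b + ∑ i, ∑ j, c i j / 2 * (P i b * P j a + q i * H j))) := by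
  have z : ∀ i, c i i = 0 := fun i => by linarith [hc i i]
  simp only [add_mul, mul_add, Finset.sum_add_distrib, ite_mul, mul_ite, one_mul, mul_one,
    zero_mul, mul_zero, Finset.sum_ite_eq', Finset.mem_univ, if_true, Finset.sum_ite_irrel,
    Finset.sum_const_zero]
  simp only [Fin.sum_univ_four, z]
  rw [hc a 0, hc a 1, hc a 2, hc a 3, hc 1 0, hc 2 0, hc 3 0, hc 2 1, hc 3 1, hc 3 2]
  ring

theorem pbf_eq (hp : IsForm1 p) (hc : Skew c) : ∃ γ, IsForm1 γ ∧ ∀ x, pbf c p x = c + d1 γ x := by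
  have s1 : ∀ b i, SP fun x => c i b * p x i := fun b i => (sp_const _).mul (hp.sp i)
  have s2 : ∀ b i j, SP fun x => c i j / 2 * (p x i * pd b (fun y => p y j) x) := fun b i j =>
    (sp_const _).mul ((hp.sp i).mul ((hp.sp j).pd b))
  have s3 : ∀ b i, SP fun x => ∑ j, c i j / 2 * (p x i * pd b (fun y => p y j) x) := fun b i =>
    SP.sum _ fun j _ => s2 b i j
  have d : ∀ a b x, pd a (fun x => ∑ i, c i b * p x i +
      ∑ i, ∑ j, c i j / 2 * (p x i * pd b (fun y => p y j) x)) x =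
      ∑ i, c i b * pd a (fun y => p y i) x + ∑ i, ∑ j, c i j / 2 *
        (pd a (fun y => p y i) x * pd b (fun y => p y j) x +
          p x i * pd a (pd b fun y => p y j) x) := fun a b x => by
    rw [pd_add (SP.sum _ fun i _ => s1 b i) (SP.sum _ fun i _ => s3 b i),
      pd_sum _ fun i _ => s1 b i, pd_sum _ fun i _ => s3 b i]
    refine congrArg₂ _ (Finset.sum_congr rfl fun i _ => pd_cmul (hp.sp i) _ _ _)
      (Finset.sum_congr rfl fun i _ => ?_)
    rw [pd_sum _ fun j _ => s2 b i j]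
    refine Finset.sum_congr rfl fun j _ => ?_
    rw [pd_cmul ((hp.sp i).mul ((hp.sp j).pd b)), pd_mul (hp.sp i) ((hp.sp j).pd b)]
  refine ⟨fun x b => ∑ i, c i b * p x i + ∑ i, ∑ j, c i j / 2 * (p x i * pd b (fun y => p y j) x),
    isForm1_of fun b => (SP.sum _ fun i _ => s1 b i).add (SP.sum _ fun i _ => s3 b i),
    fun x => funext₂ fun a b => ?_⟩
  simp only [Pi.add_apply, d1, d, fun j => pd_comm (hp.sp j) b a x]
  exact alg_Frame hc (fun i a => pd a (fun y => p y i) x) (p x)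
    (fun j => pd a (pd b fun y => p y j) x) a b

theorem pbf_form (hp : IsForm1 p) (hc : Skew c) :
    IsForm2 (pbf c p) ∧ Closed (pbf c p) ∧ avg (pbf c p) = c := by
  obtain ⟨γ, h, e⟩ := pbf_eq hp hc
  rw [show pbf c p = fun x => c + d1 γ x from funext e]
  exact ⟨isForm2_d1 c hc h, closed_d1 c h, avg_d1 c h⟩

theorem crit_Frame {f : E → ℝ} (h : SP f) (x : E) : ∃ s t : ℝ,
    pd 2 f (x + s • Pi.single 2 1 + t • Pi.single 3 1) = 0 ∧
      pd 3 f (x + s • Pi.single 2 1 + t • Pi.single 3 1) = 0 := by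
  have hF : Continuous fun z : ℝ × ℝ => f (x + z.1 • Pi.single 2 1 + z.2 • Pi.single 3 1) :=
    h.smooth.continuous.comp (by fun_prop)
  obtain ⟨z, -, hz⟩ := (isCompact_Icc (a := (0 : ℝ × ℝ)) (b := 1)).exists_isMaxOn
    (nonempty_Icc.2 zero_le_one) hF.continuousOn
  have m : ∀ s t : ℝ, f (x + s • Pi.single 2 1 + t • Pi.single 3 1) ≤
      f (x + z.1 • Pi.single 2 1 + z.2 • Pi.single 3 1) := fun s t => by
    refine le_of_eq_of_le ?_ (hz (a := (Int.fract s, Int.fract t))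
      ⟨⟨Int.fract_nonneg s, Int.fract_nonneg t⟩, (Int.fract_lt_one s).le, (Int.fract_lt_one t).le⟩)
    refine Eq.trans (congrArg f ?_) (h.per _ ![0, 0, ⌊s⌋, ⌊t⌋])
    funext i
    fin_cases i <;> simp [add_assoc]
  refine ⟨z.1, z.2, ?_, IsLocalMax.hasDerivAt_eq_zero (Eventually.of_forall fun t => m z.1 t)
    (hasDerivAt_pd h 3 _ z.2)⟩
  rw [add_right_comm]
  refine IsLocalMax.hasDerivAt_eq_zero (Eventually.of_forall fun s => ?_)
    (hasDerivAt_pd h 2 _ z.1)
  simpa only [add_right_comm x _ (z.2 • _)] using m s z.2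

theorem solve_Frame {m n m' n' b b' : E → ℝ} (hm : SP m) (hn : SP n) (hm' : SP m') (hn' : SP n')
    (hb : SP b) (hb' : SP b') (h0 : ∀ x, m x * n' x - n x * m' x ≠ 0) :
    ∃ u v, SP u ∧ SP v ∧ ∀ r x, pd r m x = 0 → pd r n x = 0 → pd r m' x = 0 → pd r n' x = 0 →
      pd r b x = m x * pd r u x + n x * pd r v x ∧ pd r b' x = m' x * pd r u x + n' x * pd r v x := by
  have hD := (hm.mul hn').sub (hn.mul hm')
  have hu := ((hn'.mul hb).sub (hn.mul hb')).div hD h0
  have hv := ((hm.mul hb').sub (hm'.mul hb)).div hD h0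
  refine ⟨_, _, hu, hv, fun r x h1 h2 h3 h4 => ⟨?_, ?_⟩⟩
  · have := pd_add (hm.mul hu) (hn.mul hv) r x
    rw [pd_mul hm hu, pd_mul hn hv, h1, h2, zero_mul, zero_mul, zero_add, zero_add] at this
    refine Eq.trans (congrArg (fun g => pd r g x) (funext fun y => ?_)) this
    rw [← mul_div_assoc, ← mul_div_assoc, ← add_div, eq_div_iff (h0 y)]
    ring
  · have := pd_add (hm'.mul hu) (hn'.mul hv) r x
    rw [pd_mul hm' hu, pd_mul hn' hv, h3, h4, zero_mul, zero_mul, zero_add, zero_add] at this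
    refine Eq.trans (congrArg (fun g => pd r g x) (funext fun y => ?_)) this
    rw [← mul_div_assoc, ← mul_div_assoc, ← add_div, eq_div_iff (h0 y)]
    ring

theorem ker_Frame {a b a' b' : ℝ} (h : a * b' - b * a' = 0) : ∃ u v : ℝ, (u ≠ 0 ∨ v ≠ 0) ∧
    u * a + v * a' = 0 ∧ u * b + v * b' = 0 := by
  by_cases h1 : a' ≠ 0 ∨ -a ≠ 0
  · exact ⟨a', -a, h1, by ring, by linarith⟩
  by_cases h2 : b' ≠ 0 ∨ -b ≠ 0
  · exact ⟨b', -b, h2, by linarith, by ring⟩
  simp only [not_or, not_not, neg_eq_zero] at h1 h2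
  exact ⟨1, 0, Or.inl one_ne_zero, by rw [h1.2]; ring, by rw [h2.2]; ring⟩

theorem potential (h : IsForm2 w) (hc : Closed w) (h23 : ∀ x, w x 2 3 = 0)
    (hp : ∀ x, 0 < wedge (w x) (w x)) (hm : 0 < wedge (avg w) (avg w)) :
    ∃ p, IsForm1 p ∧ ∀ x, Blk (jac p x) ∧ 0 < detB (jac p x) ∧
      SameMix (pbf (avg w) p x) (w x) := by
  obtain ⟨a, ha, hw, hg⟩ := gauge h hc h23
  have sk := avg_skew h
  have c23 : avg w 2 3 = 0 := by simp only [avg, h23, integral_zero]
  generalize avg w = c at *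
  have hδ : c 0 2 * c 1 3 - c 1 2 * c 0 3 ≠ 0 := fun e => by
    rw [wedge, c23] at hm
    linarith
  have ew : ∀ x j q, w x j q = c j q + pd j (fun y => a y q) x - pd q (fun y => a y j) x :=
    fun x j q => by rw [hw x, Pi.add_apply, Pi.add_apply, d1, add_sub_assoc]
  have sP : ∀ j q, SP fun x => c j q + pd j (fun y => a y q) x := fun j q =>
    (sp_const _).add ((ha.sp q).pd j)
  have dP : ∀ j {q r}, (∀ x, pd r (fun y => a y q) x = 0) →
      ∀ x, pd r (fun x => c j q + pd j (fun y => a y q) x) x = 0 := fun j q r h0 x => by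
    rw [pd_add (sp_const _) ((ha.sp q).pd j), pd_const, pd_comm (ha.sp q),
      show pd r (fun y => a y q) = fun _ => 0 from funext h0, pd_const, add_zero]
  have g22 := fun x => (hg x).1
  have g32 := fun x => (hg x).2.1
  have g23 := fun x => (hg x).2.2.1
  have g33 := fun x => (hg x).2.2.2
  have hD : ∀ x, (c 0 2 + pd 0 (fun y => a y 2) x) * (c 1 3 + pd 1 (fun y => a y 3) x) -
      (c 0 3 + pd 0 (fun y => a y 3) x) * (c 1 2 + pd 1 (fun y => a y 2) x) ≠ 0 := fun x e => by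
    obtain ⟨u, v, huv, k2, k3⟩ := ker_Frame e
    have su := (sp_const u).mul (ha.sp 0)
    have sv := (sp_const v).mul (ha.sp 1)
    obtain ⟨s, t, d2, d3⟩ := crit_Frame (su.add sv) x
    rw [pd_add su sv, pd_cmul (ha.sp 0), pd_cmul (ha.sp 1)] at d2 d3
    have l : ∀ j {q}, (∀ x, pd 2 (fun y => a y q) x = 0) → (∀ x, pd 3 (fun y => a y q) x = 0) →
        c j q + pd j (fun y => a y q) (x + s • Pi.single 2 1 + t • Pi.single 3 1) =
          c j q + pd j (fun y => a y q) x := fun j q h2 h3 =>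
      (line_const (sP j q) (dP j h3) _ t).trans (line_const (sP j q) (dP j h2) x s)
    rw [← l 0 g22 g32, ← l 1 g22 g32] at k2
    rw [← l 0 g23 g33, ← l 1 g23 g33] at k3
    generalize x + s • Pi.single 2 1 + t • Pi.single 3 1 = y at d2 d3 k2 k3
    have m2 : u * w y 0 2 + v * w y 1 2 = 0 := by rw [ew, ew]; linarith
    have m3 : u * w y 0 3 + v * w y 1 3 = 0 := by rw [ew, ew]; linarith
    have hy := hp y
    rw [wedge, h23] at hy
    have hne : w y 0 2 * w y 1 3 - w y 0 3 * w y 1 2 ≠ 0 := fun e => by linarith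
    rcases huv with h0 | h0
    · exact mul_ne_zero h0 hne (by linear_combination w y 1 3 * m2 - w y 1 2 * m3)
    · exact mul_ne_zero h0 hne (by linear_combination w y 0 2 * m3 - w y 0 3 * m2)
  obtain ⟨p0, p1, s0, s1, e01⟩ := solve_Frame (sp_const (c 0 2)) (sp_const (c 1 2))
    (sp_const (c 0 3)) (sp_const (c 1 3)) (ha.sp 2) (ha.sp 3) fun _ => hδ
  obtain ⟨p2, p3, s2, s3, e23⟩ := solve_Frame (sP 0 2) (sP 0 3) (sP 1 2) (sP 1 3)
    (ha.sp 0).neg (ha.sp 1).neg hD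
  replace e01 := fun r x => e01 r x (pd_const _ _ _) (pd_const _ _ _) (pd_const _ _ _)
    (pd_const _ _ _)
  have z : ∀ r x, pd r (fun y => a y 2) x = 0 → pd r (fun y => a y 3) x = 0 →
      pd r p0 x = 0 ∧ pd r p1 x = 0 := fun r x h2 h3 => by
    obtain ⟨k2, k3⟩ := e01 r x
    rw [h2] at k2
    rw [h3] at k3
    exact ⟨(mul_eq_zero.1 (by linear_combination c 1 2 * k3 - c 1 3 * k2)).resolve_left hδ,
      (mul_eq_zero.1 (by linear_combination c 0 3 * k2 - c 0 2 * k3)).resolve_left hδ⟩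
  refine ⟨fun x => ![p0 x, p1 x, p2 x, p3 x], isForm1_of fun i => ?_, fun x => ?_⟩
  · fin_cases i
    exacts [s0, s1, s2, s3]
  obtain ⟨G, hG⟩ : ∃ G, G = jac (fun x => ![p0 x, p1 x, p2 x, p3 x]) x := ⟨_, rfl⟩
  have G0 : ∀ r, G 0 r = (if 0 = r then 1 else 0) + pd r p0 x := fun r => hG ▸ rfl
  have G1 : ∀ r, G 1 r = (if 1 = r then 1 else 0) + pd r p1 x := fun r => hG ▸ rfl
  have G2 : ∀ r, G 2 r = (if 2 = r then 1 else 0) + pd r p2 x := fun r => hG ▸ rfl
  have G3 : ∀ r, G 3 r = (if 3 = r then 1 else 0) + pd r p3 x := fun r => hG ▸ rfl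
  have z2 := z 2 x (g22 x) (g23 x)
  have z3 := z 3 x (g32 x) (g33 x)
  have B : Blk G := ⟨by simp [G0, z2], by simp [G0, z3], by simp [G1, z2], by simp [G1, z3]⟩
  have f2 := e23 2 x (dP 0 g22 x) (dP 0 g23 x) (dP 1 g22 x) (dP 1 g23 x)
  have f3 := e23 3 x (dP 0 g32 x) (dP 0 g33 x) (dP 1 g32 x) (dP 1 g33 x)
  simp only [pd_neg] at f2 f3
  have e0 := e01 0 x
  have e1 := e01 1 x
  have M : SameMix (pb G c) (w x) := by
    refine ⟨?_, ?_, ?_, ?_⟩ <;> rw [pb_Frame G sk, ew, c23] <;>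
      simp only [B.h02, B.h03, B.h12, B.h13] <;>
      simp only [G0, G1, G2, G3, Fin.reduceEq, if_true, if_false]
    · linear_combination -f2.1 - (1 + pd 2 p2 x) * e0.1 - pd 2 p3 x * e0.2
    · linear_combination -f3.1 - pd 3 p2 x * e0.1 - (1 + pd 3 p3 x) * e0.2
    · linear_combination -f2.2 - (1 + pd 2 p2 x) * e1.1 - pd 2 p3 x * e1.2
    · linear_combination -f3.2 - pd 3 p2 x * e1.1 - (1 + pd 3 p3 x) * e1.2
  rw [pbf, ← hG]
  refine ⟨B, ?_, M⟩
  have k := hp x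
  rw [wedge, h23, ← M.h02, ← M.h03, ← M.h12, ← M.h13] at k
  have k' := wedge_pb B sk sk
  rw [wedge, pb_23 B sk, c23] at k'
  exact (pos_iff_pos_of_mul_pos (show 0 < detB G * wedge c c by linarith)).2 hm

end

end Vale.Agent.P247
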