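import Vale.Agent.P247.Defs
import Vale.Agent.P204.Jet3

/-! P247 Ops: calculus of smooth periodic functions. Smoothness and derivatives of Av, Ho from P204.contDiffOn_pint, fderiv_pint
(P = volume.restrict (Icc 0 1), U = W = univ, intervalIntegral.integral_of_le, integral_Icc_eq_integral_Ioc). pd i f (x + s e_i) is the derivative in s, so
Av_pd and Ho_pd follow from integral_eq_sub_of_hasDerivAt. int_pd: integral_divergence_of_hasFDerivAt_off_countable' with one nonzero component,
the faces cancel by periodicity. Helper names end with _Ops. -/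

namespace Vale.Agent.P247

open MeasureTheory Set Filter Topology
open scoped ContDiff

noncomputable section

variable {f g : E → ℝ}

theorem diff_Ops (h : SP f) (x : E) : DifferentiableAt ℝ f x :=
  h.smooth.differentiable (by simp) x

theorem fd_Ops (h : SP f) : ContDiff ℝ ∞ (fderiv ℝ f) :=
  h.smooth.fderiv_right (m := ∞) le_rfl

theorem pd_Ops (h : SP f) (i : Fin 4) : SP (pd i f) := by
  refine ⟨(fd_Ops h).clm_apply contDiff_const, fun x k => ?_⟩
  have h1 : (fun y => f (y + fun i => (k i : ℝ))) = f := funext fun y => h.per y k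
  unfold pd
  rw [← fderiv_comp_add_right, h1]

theorem step_Ops (h : SP f) (i : Fin 4) (x : E) : f (x + Pi.single i 1) = f x := by
  have h1 : (Pi.single i 1 : E) = fun j => ((Pi.single i 1 : Fin 4 → ℤ) j : ℝ) := by
    funext j
    by_cases hj : j = i
    · subst hj
      simp
    · simp [hj]
  rw [h1]
  exact h.per x _

theorem SP.pd (h : SP f) (i : Fin 4) : SP (pd i f) := pd_Ops h i
theorem SP.add (h : SP f) (h' : SP g) : SP fun x => f x + g x :=
  ⟨h.smooth.add h'.smooth, fun x k => by simp only [h.per x k, h'.per x k]⟩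
theorem SP.sub (h : SP f) (h' : SP g) : SP fun x => f x - g x :=
  ⟨h.smooth.sub h'.smooth, fun x k => by simp only [h.per x k, h'.per x k]⟩
theorem SP.mul (h : SP f) (h' : SP g) : SP fun x => f x * g x :=
  ⟨h.smooth.mul h'.smooth, fun x k => by simp only [h.per x k, h'.per x k]⟩
theorem SP.neg (h : SP f) : SP fun x => -f x :=
  ⟨h.smooth.neg, fun x k => by simp only [h.per x k]⟩
theorem SP.div (h : SP f) (h' : SP g) (h0 : ∀ x, g x ≠ 0) : SP fun x => f x / g x :=
  ⟨h.smooth.div h'.smooth h0, fun x k => by simp only [h.per x k, h'.per x k]⟩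
theorem sp_const (c : ℝ) : SP fun _ => c := ⟨contDiff_const, fun _ _ => rfl⟩
theorem SP.sum {ι : Type} (s : Finset ι) {F : ι → E → ℝ} (h : ∀ i ∈ s, SP (F i)) :
    SP fun x => ∑ i ∈ s, F i x :=
  ⟨ContDiff.sum fun i hi => (h i hi).smooth,
    fun x k => Finset.sum_congr rfl fun i hi => (h i hi).per x k⟩
theorem IsForm1.sp {a : E → Fin 4 → ℝ} (h : IsForm1 a) (i : Fin 4) : SP fun x => a x i :=
  ⟨contDiff_pi.1 h.smooth i, fun x k => by simp only [h.per x k]⟩
theorem isForm1_of {a : E → Fin 4 → ℝ} (h : ∀ i, SP fun x => a x i) : IsForm1 a :=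
  ⟨contDiff_pi.2 fun i => (h i).smooth, fun x k => funext fun i => (h i).per x k⟩
theorem IsForm2.sp {w : E → M2} (h : IsForm2 w) (i j : Fin 4) : SP fun x => w x i j :=
  ⟨contDiff_pi.1 (contDiff_pi.1 h.smooth i) j, fun x k => by simp only [h.per x k]⟩
theorem isForm2_of {w : E → M2} (h : ∀ i j, SP fun x => w x i j) (hs : ∀ x, Skew (w x)) :
    IsForm2 w :=
  ⟨contDiff_pi.2 fun i => contDiff_pi.2 fun j => (h i j).smooth,
    fun x k => funext fun i => funext fun j => (h i j).per x k, hs⟩
theorem pd_add (h : SP f) (h' : SP g) (i : Fin 4) (x : E) :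
    pd i (fun x => f x + g x) x = pd i f x + pd i g x := by
  unfold pd
  rw [fderiv_fun_add (diff_Ops h x) (diff_Ops h' x)]
  rfl
theorem pd_sub (h : SP f) (h' : SP g) (i : Fin 4) (x : E) :
    pd i (fun x => f x - g x) x = pd i f x - pd i g x := by
  unfold pd
  rw [fderiv_fun_sub (diff_Ops h x) (diff_Ops h' x)]
  rfl
theorem pd_mul (h : SP f) (h' : SP g) (i : Fin 4) (x : E) :
    pd i (fun x => f x * g x) x = pd i f x * g x + f x * pd i g x := by
  unfold pd
  rw [fderiv_fun_mul (diff_Ops h x) (diff_Ops h' x)]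
  simp only [_root_.add_apply, _root_.smul_apply, smul_eq_mul]
  ring
theorem pd_neg (f : E → ℝ) (i : Fin 4) (x : E) : pd i (fun x => -f x) x = -pd i f x := by
  unfold pd
  rw [fderiv_fun_neg]
  rfl
theorem pd_const (c : ℝ) (i : Fin 4) (x : E) : pd i (fun _ => c) x = 0 := by
  simp [pd]
theorem pd_cmul (h : SP f) (c : ℝ) (i : Fin 4) (x : E) :
    pd i (fun x => c * f x) x = c * pd i f x := by
  unfold pd
  rw [fderiv_const_mul (diff_Ops h x)]
  rfl
theorem pd_sum {ι : Type} (s : Finset ι) {F : ι → E → ℝ} (h : ∀ i ∈ s, SP (F i)) (j : Fin 4)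
    (x : E) : pd j (fun x => ∑ i ∈ s, F i x) x = ∑ i ∈ s, pd j (F i) x := by
  unfold pd
  rw [fderiv_fun_sum fun i hi => diff_Ops (h i hi) x, _root_.sum_apply]
theorem pd_comm (h : SP f) (i j : Fin 4) (x : E) : pd i (pd j f) x = pd j (pd i f) x := by
  have h1 : ∀ v w : E, fderiv ℝ (fun y => fderiv ℝ f y w) x v = fderiv ℝ (fderiv ℝ f) x v w := by
    intro v w
    rw [fderiv_clm_apply ((fd_Ops h).differentiable (by simp) x) (differentiableAt_const _)]
    simp
  unfold pd
  rw [h1, h1]
  have h2 : ContDiffAt ℝ 2 f x := h.smooth.contDiffAt.of_le ENat.LEInfty.out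
  exact (h2.isSymmSndFDerivAt (by simp)) _ _
theorem hasDerivAt_pd (h : SP f) (i : Fin 4) (x : E) (s : ℝ) :
    HasDerivAt (fun s : ℝ => f (x + s • Pi.single i 1)) (pd i f (x + s • Pi.single i 1)) s := by
  have h1 : HasDerivAt (fun s : ℝ => x + s • (Pi.single i 1 : E)) (Pi.single i 1) s := by
    simpa using ((hasDerivAt_id s).smul_const (Pi.single i 1 : E)).const_add x
  exact (diff_Ops h _).hasFDerivAt.comp_hasDerivAt s h1
theorem line_const (h : SP f) {i : Fin 4} (h0 : ∀ x, pd i f x = 0) (x : E) (s : ℝ) :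
    f (x + s • Pi.single i 1) = f x := by
  have h1 := is_const_of_deriv_eq_zero (f := fun s : ℝ => f (x + s • Pi.single i 1))
    (fun s => (hasDerivAt_pd h i x s).differentiableAt)
    (fun s => (hasDerivAt_pd h i x s).deriv.trans (h0 _)) s 0
  simpa using h1
theorem const_of_pd (h : SP f) (h0 : ∀ i x, pd i f x = 0) (x y : E) : f x = f y := by
  refine is_const_of_fderiv_eq_zero (𝕜 := ℝ) (diff_Ops h) (fun z => ?_) x y
  ext v
  rw [pi_eq_sum_univ' v, map_sum]
  refine Finset.sum_eq_zero fun i _ => ?_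
  rw [map_smul]
  exact smul_eq_zero_of_right _ (h0 i z)
theorem exists_cube (x : E) : ∃ k : Fin 4 → ℤ, (x + fun i => (k i : ℝ)) ∈ Icc (0 : E) 1 := by
  refine ⟨fun i => -⌊x i⌋, fun i => ?_, fun i => ?_⟩
  · simpa using Int.floor_le (x i)
  · have := Int.lt_floor_add_one (x i)
    simp only [Pi.add_apply, Int.cast_neg, Pi.one_apply]
    linarith
theorem wint_Ops (h : SP f) {c : ℝ → ℝ} (hc : ContDiff ℝ ∞ c) (v : E) :
    SP (fun x => ∫ s in (0 : ℝ)..1, c s * f (x + s • v)) ∧
      ∀ j x, pd j (fun x => ∫ s in (0 : ℝ)..1, c s * f (x + s • v)) x =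
        ∫ s in (0 : ℝ)..1, c s * pd j f (x + s • v) := by
  have e : ∀ F : ℝ → ℝ, ∫ s in (0 : ℝ)..1, F s = ∫ s in Icc (0 : ℝ) 1, F s := fun F => by
    rw [intervalIntegral.integral_of_le zero_le_one, integral_Icc_eq_integral_Ioc]
  have hΦ : ContDiff ℝ ∞ fun p : ℝ × E => c p.1 * f (p.2 + p.1 • v) :=
    (hc.comp contDiff_fst).mul
      (h.smooth.comp (contDiff_snd.add (contDiff_fst.smul contDiff_const)))
  have hP : ∀ᵐ s ∂(volume.restrict (Icc (0 : ℝ) 1)), s ∈ Icc (0 : ℝ) 1 :=
    ae_restrict_mem measurableSet_Icc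
  simp only [e]
  refine ⟨⟨contDiffOn_univ.1 (P204.contDiffOn_pint _ isCompact_Icc hP isOpen_univ hΦ.contDiffOn
    isOpen_univ (subset_univ _)), fun x k => ?_⟩, fun j x => ?_⟩
  · refine integral_congr_ae (ae_of_all _ fun s => ?_)
    simp only
    rw [add_right_comm, h.per]
  · obtain ⟨h1, h2⟩ := P204.fderiv_pint _ isCompact_Icc hP isOpen_univ hΦ.contDiffOn
      isOpen_univ (subset_univ _) (mem_univ x)
    unfold pd
    rw [h2, ContinuousLinearMap.integral_apply h1]
    refine integral_congr_ae (ae_of_all _ fun s => ?_)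
    have h3 : HasFDerivAt (fun q => c s * f (q + s • v)) (c s • fderiv ℝ f (x + s • v)) x :=
      ((hasFDerivAt_comp_add_right (s • v)).2 (diff_Ops h _).hasFDerivAt).const_mul (c s)
    simp only
    rw [h3.fderiv]
    simp

theorem Av_Ops (i : Fin 4) (f : E → ℝ) :
    Av i f = fun x => ∫ s in (0 : ℝ)..1, (fun _ => (1 : ℝ)) s * f (x + s • Pi.single i 1) := by
  funext x
  simp [Av]

theorem Ho_Ops (i : Fin 4) (f : E → ℝ) :
    Ho i f = fun x => ∫ s in (0 : ℝ)..1, (fun s => s - 1) s * f (x + s • Pi.single i 1) := rfl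

theorem lc_Ops (h : SP f) (i : Fin 4) (x : E) :
    Continuous fun s : ℝ => f (x + s • Pi.single i 1) :=
  h.smooth.continuous.comp (by fun_prop)

theorem vol_Ops : volume.real (Icc (0 : E) 1) = 1 := by
  rw [Measure.real, Real.volume_Icc_pi_toReal zero_le_one]
  simp

theorem SP.Av (h : SP f) (i : Fin 4) : SP (Av i f) := by
  rw [Av_Ops]
  exact (wint_Ops h contDiff_const _).1
theorem SP.Ho (h : SP f) (i : Fin 4) : SP (Ho i f) :=
  (wint_Ops h (contDiff_id.sub contDiff_const) _).1
theorem pd_Av (h : SP f) (i j : Fin 4) (x : E) : pd j (Av i f) x = Av i (pd j f) x := by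
  rw [Av_Ops, Av_Ops]
  exact (wint_Ops h contDiff_const _).2 j x
theorem pd_Ho (h : SP f) (i j : Fin 4) (x : E) : pd j (Ho i f) x = Ho i (pd j f) x :=
  (wint_Ops h (contDiff_id.sub contDiff_const) _).2 j x
theorem Av_pd (h : SP f) (i : Fin 4) (x : E) : Av i (pd i f) x = 0 := by
  unfold Av
  rw [intervalIntegral.integral_eq_sub_of_hasDerivAt (fun s _ => hasDerivAt_pd h i x s)
    ((lc_Ops (h.pd i) i x).intervalIntegrable _ _)]
  simp [step_Ops h]
theorem Ho_pd (h : SP f) (i : Fin 4) (x : E) : Ho i (pd i f) x = f x - Av i f x := by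
  have h1 := (lc_Ops h i x).intervalIntegrable (μ := volume) 0 1
  have h4 : Continuous fun s : ℝ => (s - 1) * pd i f (x + s • Pi.single i 1) :=
    (continuous_id.sub continuous_const).mul (lc_Ops (h.pd i) i x)
  have h2 := h4.intervalIntegrable (μ := volume) 0 1
  have h3 := intervalIntegral.integral_eq_sub_of_hasDerivAt
    (f := fun s : ℝ => (s - 1) * f (x + s • Pi.single i 1))
    (f' := fun s : ℝ => f (x + s • Pi.single i 1) + (s - 1) * pd i f (x + s • Pi.single i 1))
    (fun s _ => by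
      simpa using ((hasDerivAt_id s).sub_const 1).fun_mul (hasDerivAt_pd h i x s)) (h1.add h2)
  rw [intervalIntegral.integral_add h1 h2] at h3
  simp only [sub_self, zero_mul, zero_sub, zero_smul, add_zero] at h3
  unfold Ho Av
  linarith
theorem int_pd (h : SP f) (i : Fin 4) : ∫ x in Icc (0 : E) 1, pd i f x = 0 := by
  have h0 : ∀ x, ∑ j : Fin 4, (if j = i then fderiv ℝ f x else 0) (Pi.single j 1) = pd i f x := by
    intro x
    rw [Finset.sum_eq_single i (fun j _ hj => by simp [hj]) (by simp)]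
    simp [pd]
  have h1 := integral_divergence_of_hasFDerivAt_off_countable' (n := 3) (0 : E) 1 zero_le_one
    (fun j x => if j = i then f x else 0) (fun j x => if j = i then fderiv ℝ f x else 0) ∅
    countable_empty (fun j => ?_) (fun x _ j => ?_) ?_
  · simp only [h0] at h1
    rw [h1]
    refine Finset.sum_eq_zero fun j _ => sub_eq_zero.2 ?_
    refine integral_congr_ae (ae_of_all _ fun y => ?_)
    have h2 : (Fin.insertNth j ((1 : E) j) y : E) =
        Fin.insertNth j ((0 : E) j) y + Pi.single j 1 := by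
      rw [← sub_eq_iff_eq_add', Fin.insertNth_sub_same]
      simp
    simp only [h2, step_Ops h]
  · split_ifs
    · exact h.smooth.continuous.continuousOn
    · exact continuousOn_const
  · split_ifs
    · exact (diff_Ops h x).hasFDerivAt
    · exact hasFDerivAt_const _ _
  · simp only [h0]
    exact (h.pd i).smooth.continuous.continuousOn.integrableOn_compact isCompact_Icc
theorem SP.intOn (h : SP f) : IntegrableOn f (Icc (0 : E) 1) :=
  h.smooth.continuous.continuousOn.integrableOn_compact isCompact_Icc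
theorem int_const (c : ℝ) : ∫ _ in Icc (0 : E) 1, c = c := by
  rw [setIntegral_const, vol_Ops, one_smul]
theorem sign_int (h : Continuous f) (h0 : ∀ x, f x ≠ 0) (x : E) :
    0 < f x * ∫ y in Icc (0 : E) 1, f y := by
  have hg : Continuous fun y => f x * f y := continuous_const.mul h
  have h1 : ∀ y, 0 < f x * f y := fun y => by
    by_contra hy
    obtain ⟨z, hz⟩ := intermediate_value_univ y x hg
      (show (0 : ℝ) ∈ Icc (f x * f y) (f x * f x) from ⟨not_lt.1 hy, mul_self_nonneg _⟩)
    exact mul_ne_zero (h0 x) (h0 z) hz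
  obtain ⟨a, ha, h2⟩ := (isCompact_Icc (a := (0 : E)) (b := 1)).exists_forall_le'
    hg.continuousOn fun y _ => h1 y
  rw [← integral_const_mul]
  refine ha.trans_le ((int_const a).symm.le.trans ?_)
  exact setIntegral_mono_on (continuousOn_const.integrableOn_compact isCompact_Icc)
    (hg.continuousOn.integrableOn_compact isCompact_Icc) measurableSet_Icc h2

end

end Vale.Agent.P247
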