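import Vale.Agent.P247.Frame

/-! P247 Pair: the linear path of pairs stays positive. For (u', v') let s be the constant skew form with mixed entries n_a l_q, n = (-v', u'),
l_q = u' c0q + v' c1q (c = avg b), entries 01, 23 zero. If (u', v') = G_B (u, v) then for every form e with e23 = 0:
wedge e (pb G s) = det G_B * kap b e u v. So y ↦ wedge (w y) (pbf s p y) never vanishes, has the sign of its integral wedge (avg w) s (sign_int, int_wedge),
and wedge (pbf (avg w) p x) (pbf s p x) = detB * wedge (avg w) s. Conclude with pos2_iff. Helper names end with _Pair. -/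

namespace Vale.Agent.P247

open MeasureTheory Set Filter Topology
open scoped ContDiff

noncomputable section

/-- the constant test form -/
def sF_Pair (c : M2) (u v : ℝ) : M2 :=
  ![![0, 0, -v * (u * c 0 2 + v * c 1 2), -v * (u * c 0 3 + v * c 1 3)],
    ![0, 0, u * (u * c 0 2 + v * c 1 2), u * (u * c 0 3 + v * c 1 3)],
    ![v * (u * c 0 2 + v * c 1 2), -u * (u * c 0 2 + v * c 1 2), 0, 0],
    ![v * (u * c 0 3 + v * c 1 3), -u * (u * c 0 3 + v * c 1 3), 0, 0]]

theorem skew_Pair (c : M2) (u v : ℝ) : Skew (sF_Pair c u v) := by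
  intro i j
  fin_cases i <;> fin_cases j <;> simp [sF_Pair]

theorem key_Pair {G c b e : M2} (hG : Blk G) (hc : Skew c) (c23 : c 2 3 = 0)
    (hm : SameMix (pb G c) b) (e23 : e 2 3 = 0) (u v : ℝ) :
    wedge e (pb G (sF_Pair c (G 0 0 * u + G 0 1 * v) (G 1 0 * u + G 1 1 * v))) =
      (G 0 0 * G 1 1 - G 0 1 * G 1 0) * kap b e u v := by
  have c22 : c 2 2 = 0 := by linarith [hc 2 2]
  have c33 : c 3 3 = 0 := by linarith [hc 3 3]
  have c32 : c 3 2 = 0 := by linarith [hc 3 2]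
  rw [kap, ← hm.h02, ← hm.h03, ← hm.h12, ← hm.h13]
  simp [wedge, pb, Fin.sum_univ_four, sF_Pair, hG.h02, hG.h03, hG.h12, hG.h13, c22, c33, c32, c23,
    e23]
  ring

theorem inj_Pair {a b c d u v : ℝ} (h : a * d - b * c ≠ 0) (huv : u ≠ 0 ∨ v ≠ 0) :
    a * u + b * v ≠ 0 ∨ c * u + d * v ≠ 0 := by
  by_contra hn
  rw [not_or, not_not, not_not] at hn
  rcases huv with h1 | h1
  · exact mul_ne_zero h h1 (by linear_combination d * hn.1 - b * hn.2)
  · exact mul_ne_zero h h1 (by linear_combination a * hn.2 - c * hn.1)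

theorem solve_Pair {a b c d u v : ℝ} (h : a * d - b * c ≠ 0) (huv : u ≠ 0 ∨ v ≠ 0) :
    ∃ u' v' : ℝ, (u' ≠ 0 ∨ v' ≠ 0) ∧ a * u' + b * v' = u ∧ c * u' + d * v' = v := by
  have h1 : a * ((d * u - b * v) / (a * d - b * c)) + b * ((a * v - c * u) / (a * d - b * c)) = u := by
    rw [← mul_div_assoc, ← mul_div_assoc, ← add_div, div_eq_iff h]
    ring
  have h2 : c * ((d * u - b * v) / (a * d - b * c)) + d * ((a * v - c * u) / (a * d - b * c)) = v := by
    rw [← mul_div_assoc, ← mul_div_assoc, ← add_div, div_eq_iff h]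
    ring
  refine ⟨_, _, ?_, h1, h2⟩
  by_contra hn
  rw [not_or, not_not, not_not] at hn
  rw [hn.1, hn.2] at h1 h2
  rcases huv with h3 | h3
  · exact h3 (by linarith)
  · exact h3 (by linarith)

theorem pair_path {b w : E → M2} {p : E → Fin 4 → ℝ} (hb : IsForm2 b) (hw : IsForm2 w)
    (hwc : Closed w) (hb0 : ∀ x, b x 2 3 = 0) (hw0 : ∀ x, w x 2 3 = 0)
    (h : ∀ x, Pos2 (b x) (w x)) (hp : IsForm1 p)
    (hG : ∀ x, Blk (jac p x) ∧ 0 < detB (jac p x) ∧ SameMix (pbf (avg b) p x) (b x))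
    {t : ℝ} (ht : t ∈ Icc (0 : ℝ) 1) (x : E) :
    Pos2 (lin b (pbf (avg b) p) t x) (lin w (pbf (avg w) p) t x) := by
  have hc := avg_skew hb
  have hc' := avg_skew hw
  have c23 : avg b 2 3 = 0 := by simp [avg, hb0]
  have c23' : avg w 2 3 = 0 := by simp [avg, hw0]
  have hP : ∀ y, 0 < wedge (b y) (b y) ∧ ∀ u v : ℝ, u ≠ 0 ∨ v ≠ 0 → kap (b y) (w y) u v ≠ 0 :=
    fun y => (pos2_iff (hb0 y) (hw0 y)).1 (h y)
  have hd : ∀ y, jac p y 0 0 * jac p y 1 1 - jac p y 0 1 * jac p y 1 0 ≠ 0 := fun y =>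
    left_ne_zero_of_mul (hG y).2.1.ne'
  have p23 : pbf (avg b) p x 2 3 = 0 := by rw [pbf, pb_23 (hG x).1 hc, c23, mul_zero]
  have q23 : pbf (avg w) p x 2 3 = 0 := by rw [pbf, pb_23 (hG x).1 hc', c23', mul_zero]
  have l23 : lin b (pbf (avg b) p) t x 2 3 = 0 := by simp [lin, hb0, p23]
  have m23 : lin w (pbf (avg w) p) t x 2 3 = 0 := by simp [lin, hw0, q23]
  have hm : SameMix (lin b (pbf (avg b) p) t x) (b x) := by
    obtain ⟨-, -, e1, e2, e3, e4⟩ := hG x
    constructor <;> simp only [lin, Pi.add_apply, Pi.smul_apply, smul_eq_mul, e1, e2, e3, e4] <;>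
      ring
  refine (pos2_iff l23 m23).2 ⟨?_, fun u v huv => ?_⟩
  · have := (hP x).1
    simp only [wedge, hb0, l23, hm.h02, hm.h03, hm.h12, hm.h13] at this ⊢
    linarith
  have e : kap (lin b (pbf (avg b) p) t x) (lin w (pbf (avg w) p) t x) u v =
      (1 - t) * kap (b x) (w x) u v + t * kap (b x) (pbf (avg w) p x) u v := by
    simp only [kap, hm.h02, hm.h03, hm.h12, hm.h13]
    simp only [lin, Pi.add_apply, Pi.smul_apply, smul_eq_mul]
    ring
  obtain ⟨s, hs⟩ : ∃ s, s = sF_Pair (avg b) (jac p x 0 0 * u + jac p x 0 1 * v)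
    (jac p x 1 0 * u + jac p x 1 1 * v) := ⟨_, rfl⟩
  have hsk : Skew s := hs ▸ skew_Pair _ _ _
  obtain ⟨f1, f2, f3⟩ := pbf_form hp hsk
  have hne : ∀ y, wedge (w y) (pbf s p y) ≠ 0 := by
    intro y
    obtain ⟨u', v', h1, h2, h3⟩ := solve_Pair (hd y) (inj_Pair (hd x) huv)
    rw [hs, ← h2, ← h3, pbf, key_Pair (hG y).1 hc c23 (hG y).2.2 (hw0 y)]
    exact mul_ne_zero (hd y) ((hP y).2 _ _ h1)
  have h1 := sign_int (f := fun y => wedge (w y) (pbf s p y))
    (continuous_wedge.comp (hw.smooth.continuous.prodMk f1.smooth.continuous)) hne x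
  rw [int_wedge hw hwc f1 f2, f3] at h1
  have h2 : wedge (pbf (avg w) p x) (pbf s p x) = detB (jac p x) * wedge (avg w) s :=
    wedge_pb (hG x).1 hc' hsk
  have h3 := mul_pos (hG x).2.1 h1
  have h4 : wedge (w x) (pbf s p x) =
      (jac p x 0 0 * jac p x 1 1 - jac p x 0 1 * jac p x 1 0) * kap (b x) (w x) u v := by
    rw [hs, pbf]
    exact key_Pair (hG x).1 hc c23 (hG x).2.2 (hw0 x) u v
  have h5 : wedge (pbf (avg w) p x) (pbf s p x) =
      (jac p x 0 0 * jac p x 1 1 - jac p x 0 1 * jac p x 1 0) *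
        kap (b x) (pbf (avg w) p x) u v := by
    rw [hs]
    exact key_Pair (hG x).1 hc c23 (hG x).2.2 q23 u v
  rw [mul_left_comm, ← h2, h4, h5, mul_mul_mul_comm] at h3
  have h6 := (mul_pos_iff_of_pos_left (mul_self_pos.2 (hd x))).1 h3
  rw [e]
  intro h0
  have h7 := mul_self_pos.2 ((hP x).2 u v huv)
  have h8 : (1 - t) * (kap (b x) (w x) u v * kap (b x) (w x) u v) +
      t * (kap (b x) (w x) u v * kap (b x) (pbf (avg w) p x) u v) = 0 := by
    linear_combination kap (b x) (w x) u v * h0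
  rcases eq_or_lt_of_le ht.1 with h9 | h9
  · rw [← h9] at h8
    linarith
  · nlinarith [mul_pos h9 h6, mul_nonneg (sub_nonneg.2 ht.2) h7.le]

end

end Vale.Agent.P247
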