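import Vale.Agent.P247.Ops

/-! P247 Poin: Poincare lemma on the torus, integrals of wedge products, fibre gauge.
step: for closed w, w = Av i w + d1 (fun j => Ho i (w i j)) (pd_Ho, closedness, Ho_pd; Ho is additive on continuous functions), Av i w is again a closed
form, pd i (Av i .) = 0 and pd j (Av i f) = 0 if pd j f = 0. Four steps give a form with all derivatives zero, a constant c; c = avg w by int_pd.
int_wedge_d1: wedge (d1 a) w is a sum of pd i (a j * w k l) by closedness. gauge: with psi = Ho 2 a2 + Ho 3 (Av 2 a3) put a - d psi; its components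
2, 3 are Av 2 a2 and Av 3 (Av 2 a3); use pd 2 a3 = pd 3 a2 (avg w 2 3 = 0). Helper names end with _Poin. -/

namespace Vale.Agent.P247

open MeasureTheory Set Filter Topology
open scoped ContDiff

noncomputable section

variable {w w' : E → M2} {a : E → Fin 4 → ℝ}

theorem sp_d1_Poin (h : IsForm1 a) (i j : Fin 4) : SP fun x => d1 a x i j :=
  ((h.sp j).pd i).sub ((h.sp i).pd j)

theorem cont_Poin {f : E → ℝ} (h : SP f) (i : Fin 4) (x : E) :
    Continuous fun s : ℝ => f (x + s • Pi.single i 1) :=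
  h.smooth.continuous.comp (continuous_const.add (continuous_id.smul continuous_const))

theorem Av_add_Poin {f g : E → ℝ} (h : SP f) (h' : SP g) (i : Fin 4) (x : E) :
    Av i (fun y => f y + g y) x = Av i f x + Av i g x :=
  intervalIntegral.integral_add ((cont_Poin h i x).intervalIntegrable _ _)
    ((cont_Poin h' i x).intervalIntegrable _ _)

theorem Ho_sub_Poin {f g : E → ℝ} (h : SP f) (h' : SP g) (i : Fin 4) (x : E) :
    Ho i (fun y => f y - g y) x = Ho i f x - Ho i g x := by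
  have c : Continuous fun s : ℝ => s - 1 := continuous_id.sub continuous_const
  simp only [Ho, mul_sub _ (f _)]
  exact intervalIntegral.integral_sub ((c.mul (cont_Poin h i x)).intervalIntegrable _ _)
    ((c.mul (cont_Poin h' i x)).intervalIntegrable _ _)

theorem Av_zero_Poin {f : E → ℝ} (h : ∀ x, f x = 0) (i : Fin 4) (x : E) : Av i f x = 0 := by
  simp only [Av, h, intervalIntegral.integral_zero]

theorem Ho_zero_Poin {f : E → ℝ} (h : ∀ x, f x = 0) (i : Fin 4) (x : E) : Ho i f x = 0 := by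
  simp only [Ho, h, mul_zero, intervalIntegral.integral_zero]

theorem pd_Av_Poin {f : E → ℝ} (h : SP f) (i : Fin 4) (x : E) : pd i (Av i f) x = 0 := by
  rw [pd_Av h, Av_pd h]

theorem cl_Poin (h : IsForm2 w) (hc : Closed w) (x : E) (i j k : Fin 4) :
    pd i (fun y => w y j k) x = pd j (fun y => w y i k) x - pd k (fun y => w y i j) x := by
  have h1 := hc x i j k
  have h2 : (fun y => w y k i) = fun y => -w y i k := funext fun y => h.skew y k i
  rw [h2, pd_neg] at h1
  linarith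

theorem d1_add_Poin {b : E → Fin 4 → ℝ} (h : IsForm1 a) (h' : IsForm1 b) (x : E) :
    d1 (fun y j => a y j + b y j) x = d1 a x + d1 b x := by
  funext i j
  simp only [d1, Pi.add_apply, pd_add (h.sp _) (h'.sp _)]
  ring

theorem isForm2_d1 (c : M2) (hc : Skew c) (h : IsForm1 a) : IsForm2 fun x => c + d1 a x := by
  refine isForm2_of (fun i j => (sp_const (c i j)).add (sp_d1_Poin h i j)) fun x i j => ?_
  simp only [Pi.add_apply, d1, hc i j]
  ring

theorem closed_d1 (c : M2) (h : IsForm1 a) : Closed fun x => c + d1 a x := by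
  intro x i j k
  have e : ∀ i j k, pd i (fun y => (c + d1 a y) j k) x =
      pd i (pd j fun y => a y k) x - pd i (pd k fun y => a y j) x := fun i j k => by
    have h1 := pd_add (sp_const (c j k)) (sp_d1_Poin h j k) i x
    have h2 := pd_sub ((h.sp k).pd j) ((h.sp j).pd k) i x
    rw [pd_const, zero_add] at h1
    exact h1.trans h2
  rw [e, e, e, pd_comm (h.sp k) i j, pd_comm (h.sp j) i k, pd_comm (h.sp i) j k]
  ring

theorem avg_skew (h : IsForm2 w) : Skew (avg w) := by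
  intro i j
  simp only [avg, fun x => h.skew x i j, integral_neg]

theorem avg_d1 (c : M2) (h : IsForm1 a) : avg (fun x => c + d1 a x) = c := by
  funext i j
  have h1 := integral_add (sp_const (c i j)).intOn (sp_d1_Poin h i j).intOn
  have h2 := integral_sub ((h.sp j).pd i).intOn ((h.sp i).pd j).intOn
  rw [int_pd (h.sp j), int_pd (h.sp i), sub_zero] at h2
  have h3 : ∫ x in Icc (0 : E) 1, d1 a x i j = 0 := h2
  rw [int_const, h3, add_zero] at h1
  exact h1

theorem step_Poin (h : IsForm2 w) (hc : Closed w) (i : Fin 4) :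
    IsForm2 (fun x j k => Av i (fun y => w y j k) x) ∧
    Closed (fun x j k => Av i (fun y => w y j k) x) ∧
    IsForm1 (fun x j => Ho i (fun y => w y i j) x) ∧
    ∀ x, w x = (fun j k => Av i (fun y => w y j k) x) +
      d1 (fun x j => Ho i (fun y => w y i j) x) x := by
  refine ⟨isForm2_of (fun j k => (h.sp j k).Av i) fun x j k => ?_, fun x j k l => ?_,
    isForm1_of fun j => (h.sp i j).Ho i, fun x => funext fun j => funext fun k => ?_⟩
  · simp only [Av, fun y => h.skew y j k, intervalIntegral.integral_neg]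
  · have e : ∀ j k l, pd j (fun y => Av i (fun y => w y k l) y) x =
        Av i (pd j fun y => w y k l) x := fun j k l => pd_Av (h.sp k l) i j x
    simp only [e]
    rw [← Av_add_Poin ((h.sp k l).pd j) ((h.sp l j).pd k), ← Av_add_Poin
      (((h.sp k l).pd j).add ((h.sp l j).pd k)) ((h.sp j k).pd l)]
    exact Av_zero_Poin (fun y => hc y j k l) i x
  · have e : ∀ j k, pd j (fun y => Ho i (fun y => w y i k) y) x =
        Ho i (pd j fun y => w y i k) x := fun j k => pd_Ho (h.sp i k) i j x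
    have e2 : (pd i fun y => w y j k) = fun y => pd j (fun y => w y i k) y -
        pd k (fun y => w y i j) y := funext fun y => cl_Poin h hc y i j k
    have e3 := Ho_pd (h.sp j k) i x
    rw [e2, Ho_sub_Poin ((h.sp i k).pd j) ((h.sp i j).pd k)] at e3
    simp only [Pi.add_apply, d1, e]
    linarith

theorem ind_Poin (h : IsForm2 w) (hc : Closed w) (s : Finset (Fin 4)) :
    ∃ (u : E → M2) (b : E → Fin 4 → ℝ), IsForm2 u ∧ Closed u ∧ IsForm1 b ∧
      (∀ x, w x = u x + d1 b x) ∧ ∀ l ∈ s, ∀ j k x, pd l (fun y => u y j k) x = 0 := by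
  induction s using Finset.induction_on with
  | empty =>
    refine ⟨w, fun _ _ => 0, h, hc, isForm1_of fun _ => sp_const 0, fun x => ?_, by simp⟩
    funext i j
    simp only [Pi.add_apply, d1, pd_const, sub_self, add_zero]
  | insert i s _ ih =>
    obtain ⟨u, b, h1, h2, h3, h4, h5⟩ := ih
    obtain ⟨k1, k2, k3, k4⟩ := step_Poin h1 h2 i
    refine ⟨_, _, k1, k2, isForm1_of fun j => (k3.sp j).add (h3.sp j), fun x => ?_,
      fun l hl j k x => ?_⟩
    · rw [d1_add_Poin k3 h3, ← add_assoc, ← k4, h4]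
    · rcases Finset.mem_insert.1 hl with rfl | hl
      · exact pd_Av_Poin (h1.sp j k) l x
      · exact (pd_Av (h1.sp j k) i l x).trans (Av_zero_Poin (h5 l hl j k) i x)

theorem poincare (h : IsForm2 w) (hc : Closed w) : ∃ a, IsForm1 a ∧ ∀ x, w x = avg w + d1 a x := by
  obtain ⟨u, b, h1, -, h3, h4, h5⟩ := ind_Poin h hc Finset.univ
  have h6 : ∀ x, u x = u 0 := fun x => funext fun j => funext fun k =>
    const_of_pd (h1.sp j k) (fun l y => h5 l (Finset.mem_univ l) j k y) x 0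
  have h7 : w = fun x => u 0 + d1 b x := funext fun x => by rw [h4, h6]
  refine ⟨b, h3, fun x => ?_⟩
  rw [h4, h6, h7, avg_d1 _ h3]

theorem tri_Poin {f1 f2 f3 g1 g2 g3 : E → ℝ} (a1 : SP f1) (a2 : SP f2) (a3 : SP f3) (b1 : SP g1)
    (b2 : SP g2) (b3 : SP g3) (i : Fin 4) :
    SP (fun y => f1 y * g1 y - f2 y * g2 y + f3 y * g3 y) ∧ ∀ x,
      pd i (fun y => f1 y * g1 y - f2 y * g2 y + f3 y * g3 y) x =
        pd i f1 x * g1 x + f1 x * pd i g1 x - (pd i f2 x * g2 x + f2 x * pd i g2 x) +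
          (pd i f3 x * g3 x + f3 x * pd i g3 x) :=
  ⟨((a1.mul b1).sub (a2.mul b2)).add (a3.mul b3), fun x => by
    rw [pd_add ((a1.mul b1).sub (a2.mul b2)) (a3.mul b3), pd_sub (a1.mul b1) (a2.mul b2),
      pd_mul a1 b1, pd_mul a2 b2, pd_mul a3 b3]⟩

theorem int_wedge_d1 (h : IsForm2 w) (hc : Closed w) (ha : IsForm1 a) :
    ∫ x in Icc (0 : E) 1, wedge (d1 a x) (w x) = 0 := by
  obtain ⟨s0, e0⟩ := tri_Poin (ha.sp 1) (ha.sp 2) (ha.sp 3) (h.sp 2 3) (h.sp 1 3) (h.sp 1 2) 0
  obtain ⟨s1, e1⟩ := tri_Poin (ha.sp 0) (ha.sp 2) (ha.sp 3) (h.sp 2 3) (h.sp 0 3) (h.sp 0 2) 1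
  obtain ⟨s2, e2⟩ := tri_Poin (ha.sp 0) (ha.sp 1) (ha.sp 3) (h.sp 1 3) (h.sp 0 3) (h.sp 0 1) 2
  obtain ⟨s3, e3⟩ := tri_Poin (ha.sp 0) (ha.sp 1) (ha.sp 2) (h.sp 1 2) (h.sp 0 2) (h.sp 0 1) 3
  have i0 := integral_sub (s0.pd 0).intOn (s1.pd 1).intOn
  have i1 := integral_add ((s0.pd 0).sub (s1.pd 1)).intOn (s2.pd 2).intOn
  have i2 := integral_sub (((s0.pd 0).sub (s1.pd 1)).add (s2.pd 2)).intOn (s3.pd 3).intOn
  rw [i1, i0, int_pd s0, int_pd s1, int_pd s2, int_pd s3, sub_zero, add_zero, sub_zero] at i2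
  refine Eq.trans (integral_congr_ae (Eventually.of_forall fun x => ?_)) i2
  simp only [e0, e1, e2, e3, wedge, d1]
  rw [cl_Poin h hc x 1 2 3, cl_Poin h hc x 0 2 3, cl_Poin h hc x 0 1 3, cl_Poin h hc x 0 1 2]
  ring

theorem sp_wedge_Poin {u v : E → M2} (hu : ∀ i j, SP fun x => u x i j)
    (hv : ∀ i j, SP fun x => v x i j) : SP fun x => wedge (u x) (v x) :=
  ((((((hu 0 1).mul (hv 2 3)).sub ((hu 0 2).mul (hv 1 3))).add ((hu 0 3).mul (hv 1 2))).add
    ((hu 1 2).mul (hv 0 3))).sub ((hu 1 3).mul (hv 0 2))).add ((hu 2 3).mul (hv 0 1))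

theorem int_wedge (h : IsForm2 w) (hc : Closed w) (h' : IsForm2 w') (hc' : Closed w') :
    ∫ x in Icc (0 : E) 1, wedge (w x) (w' x) = wedge (avg w) (avg w') := by
  obtain ⟨a, ha, e⟩ := poincare h hc
  obtain ⟨b, hb, e'⟩ := poincare h' hc'
  have f1 : IsForm2 fun _ : E => avg w :=
    isForm2_of (fun i j => sp_const (avg w i j)) fun _ => avg_skew h
  have f2 : Closed fun _ : E => avg w := fun x i j k => by simp only [pd_const, add_zero]
  have s1 := sp_wedge_Poin (u := d1 a) (sp_d1_Poin ha) h'.sp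
  have s2 := sp_wedge_Poin (u := d1 b) (sp_d1_Poin hb) f1.sp
  have i1 := integral_add s1.intOn s2.intOn
  have i2 := integral_add (s1.add s2).intOn (sp_const (wedge (avg w) (avg w'))).intOn
  rw [i1, int_wedge_d1 h' hc' ha, int_wedge_d1 f1 f2 hb, int_const, add_zero, zero_add] at i2
  refine Eq.trans (integral_congr_ae (Eventually.of_forall fun x => ?_)) i2
  simp only [e x, e' x, wedge, Pi.add_apply]
  ring

theorem gauge (h : IsForm2 w) (hc : Closed w) (h23 : ∀ x, w x 2 3 = 0) :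
    ∃ a, IsForm1 a ∧ (∀ x, w x = avg w + d1 a x) ∧
      ∀ x, pd 2 (fun y => a y 2) x = 0 ∧ pd 3 (fun y => a y 2) x = 0 ∧
        pd 2 (fun y => a y 3) x = 0 ∧ pd 3 (fun y => a y 3) x = 0 := by
  obtain ⟨a, ha, e⟩ := poincare h hc
  have c0 : avg w 2 3 = 0 := by simp only [avg, h23, integral_zero]
  have h1 : (pd 3 fun y => a y 2) = pd 2 fun y => a y 3 := funext fun x => by
    have := congrFun (congrFun (e x) 2) 3
    simp only [Pi.add_apply, d1, h23, c0] at this
    linarith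
  have s2 := ha.sp 2
  have s3 := ha.sp 3
  have sψ := (s2.Ho 2).add ((s3.Av 2).Ho 3)
  obtain ⟨ψ, hψ⟩ : ∃ ψ : E → ℝ, ψ = fun x => Ho 2 (fun y => a y 2) x +
    Ho 3 (Av 2 fun y => a y 3) x := ⟨_, rfl⟩
  have e2 : (fun y => a y 2 - pd 2 ψ y) = Av 2 fun y => a y 2 := funext fun x => by
    rw [hψ, pd_add (s2.Ho 2) ((s3.Av 2).Ho 3), pd_Ho s2, pd_Ho (s3.Av 2), Ho_pd s2,
      Ho_zero_Poin (pd_Av_Poin s3 2)]
    ring
  have e3 : (fun y => a y 3 - pd 3 ψ y) = Av 3 (Av 2 fun y => a y 3) := funext fun x => by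
    rw [hψ, pd_add (s2.Ho 2) ((s3.Av 2).Ho 3), pd_Ho s2, pd_Ho (s3.Av 2), h1, Ho_pd s3,
      Ho_pd (s3.Av 2)]
    ring
  rw [← hψ] at sψ
  refine ⟨fun x j => a x j - pd j ψ x, isForm1_of fun j => (ha.sp j).sub (sψ.pd j), fun x => ?_,
    fun x => ?_⟩
  · rw [e x]
    funext i j
    simp only [Pi.add_apply, d1, pd_sub (ha.sp _) (sψ.pd _), pd_comm sψ i j]
    ring
  · simp only [e2, e3]
    refine ⟨pd_Av_Poin s2 2 x, ?_, ?_, pd_Av_Poin (s3.Av 2) 3 x⟩
    · rw [pd_Av s2, h1, Av_pd s3]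
    · rw [pd_Av (s3.Av 2), Av_zero_Poin (pd_Av_Poin s3 2)]


end

end Vale.Agent.P247
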