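import Vale.Agent.P247.Core

/-! P247 Rot: constant rotations of the triple. rot R w i x = sum j, R i j • w j x; for an orthogonal R (R * R^T = 1 = R^T * R) Hyp, Normalized, HK,
Deform are preserved and rot R^T (rot R w) = w. Choose R with first row c / |c| or its negative (c is not zero and f never vanishes, else all three forms
vanish on the fibre against alg_a23; f = w i / c i is continuous, so its sign is constant). Helper names end with _Rot. -/

namespace Vale.Agent.P247

open MeasureTheory Set Filter Topology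
open scoped ContDiff

noncomputable section

/-- Constant rotation of a triple. -/
def rot_Rot (R : Matrix (Fin 3) (Fin 3) ℝ) (w : Fin 3 → E → M2) : Fin 3 → E → M2 :=
  fun i x => ∑ j, R i j • w j x

variable {R : Matrix (Fin 3) (Fin 3) ℝ} {w w' : Fin 3 → E → M2}

theorem app_Rot (R : Matrix (Fin 3) (Fin 3) ℝ) (w : Fin 3 → E → M2) (i : Fin 3) (x : E)
    (a b : Fin 4) : rot_Rot R w i x a b = ∑ j, R i j * w j x a b := by
  simp only [rot_Rot, Finset.sum_apply, Pi.smul_apply, smul_eq_mul]

theorem wedge_Rot (R : Matrix (Fin 3) (Fin 3) ℝ) (w : Fin 3 → E → M2) (i j : Fin 3) (x : E) :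
    wedge (rot_Rot R w i x) (rot_Rot R w j x) =
      ∑ k, ∑ l, R i k * R j l * wedge (w k x) (w l x) := by
  simp only [wedge, app_Rot, Fin.sum_univ_three]
  ring

theorem orth_Rot (hR : R * R.transpose = 1) (i j : Fin 3) :
    ∑ k, R i k * R j k = if i = j then 1 else 0 := by
  have := congrFun (congrFun hR i) j
  rwa [Matrix.mul_apply, Matrix.one_apply] at this

theorem diag_Rot (hR : R * R.transpose = 1) (m : ℝ) (i j : Fin 3) :
    ∑ k, ∑ l, R i k * R j l * (if k = l then m else 0) = if i = j then m else 0 := by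
  simp only [mul_ite, mul_zero, Finset.sum_ite_eq, Finset.mem_univ, if_true]
  rw [← Finset.sum_mul, orth_Rot hR]
  split_ifs <;> simp

theorem pd_Rot (h : ∀ i, IsForm2 (w i)) (i : Fin 3) (x : E) (a b c : Fin 4) :
    pd c (fun y => rot_Rot R w i y a b) x = ∑ j, R i j * pd c (fun y => w j y a b) x := by
  simp only [app_Rot]
  rw [pd_sum _ fun j _ => (sp_const (R i j)).mul ((h j).sp a b)]
  exact Finset.sum_congr rfl fun j _ => pd_cmul ((h j).sp a b) _ _ _

theorem hyp_Rot (hR : R * R.transpose = 1) (h : Hyp w) : Hyp (rot_Rot R w) := by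
  refine ⟨fun i => isForm2_of (fun a b => ?_) fun x a b => ?_, fun i x a b c => ?_, fun x => ?_⟩
  · simp only [app_Rot]
    exact SP.sum _ fun j _ => (sp_const (R i j)).mul ((h.form j).sp a b)
  · rw [app_Rot, app_Rot, ← Finset.sum_neg_distrib]
    exact Finset.sum_congr rfl fun j _ => by rw [(h.form j).skew x a b, mul_neg]
  · rw [pd_Rot h.form, pd_Rot h.form, pd_Rot h.form, ← Finset.sum_add_distrib,
      ← Finset.sum_add_distrib]
    refine Finset.sum_eq_zero fun j _ => ?_
    rw [← mul_add, ← mul_add, h.closed j x a b c, mul_zero]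
  · have hi : Function.Injective R.vecMul :=
      Matrix.vecMul_injective_of_isUnit (IsUnit.of_mul_eq_one _ hR)
    have h1 := (h.pos x).mul_mul_conjTranspose_same hi
    have e : (Matrix.of fun i j => wedge (rot_Rot R w i x) (rot_Rot R w j x)) =
        R * (Matrix.of fun i j => wedge (w i x) (w j x)) * R.conjTranspose := by
      ext i j
      simp only [Matrix.of_apply, wedge_Rot, Matrix.mul_apply, Matrix.conjTranspose_apply,
        star_trivial, Fin.sum_univ_three]
      ring
    rw [e]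
    exact h1

theorem norm_Rot (hR : R * R.transpose = 1) (h : Hyp w) (hn : Normalized w) :
    Normalized (rot_Rot R w) := by
  intro i j
  have hi : ∀ k l, IntegrableOn (fun x => R i k * R j l * wedge (w k x) (w l x))
      (Icc (0 : E) 1) := fun k l => by
    have hc : Continuous fun x => wedge (w k x) (w l x) :=
      continuous_wedge.comp ((h.form k).smooth.continuous.prodMk (h.form l).smooth.continuous)
    exact (continuous_const.mul hc).continuousOn.integrableOn_Icc
  simp only [wedge_Rot]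
  rw [integral_finsetSum _ fun k _ => integrable_finsetSum _ fun l _ => hi k l,
    ← diag_Rot hR 1 i j]
  refine Finset.sum_congr rfl fun k _ => ?_
  rw [integral_finsetSum _ fun l _ => hi k l]
  refine Finset.sum_congr rfl fun l _ => ?_
  rw [integral_const_mul, hn k l]

theorem hk_Rot (hR : R * R.transpose = 1) (h : HK w) : HK (rot_Rot R w) := by
  obtain ⟨h1, μ, hμ⟩ := h
  refine ⟨hyp_Rot hR h1, μ, fun x => ⟨(hμ x).1, fun i j => ?_⟩⟩
  simp only [wedge_Rot, (hμ x).2]
  exact diag_Rot hR _ i j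

theorem coh_Rot (h : ∀ i, Cohom (w i) (w' i)) (i : Fin 3) :
    Cohom (rot_Rot R w i) (rot_Rot R w' i) := by
  choose a ha hb using h
  have hp : ∀ x (b c : Fin 4), pd c (fun y => ∑ j, R i j * a j y b) x =
      ∑ j, R i j * pd c (fun y => a j y b) x := fun x b c => by
    rw [pd_sum _ fun j _ => (sp_const (R i j)).mul ((ha j).sp b)]
    exact Finset.sum_congr rfl fun j _ => pd_cmul ((ha j).sp b) _ _ _
  refine ⟨fun x b => ∑ j, R i j * a j x b,
    isForm1_of fun b => SP.sum _ fun j _ => (sp_const (R i j)).mul ((ha j).sp b), fun x => ?_⟩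
  funext b c
  simp only [Pi.add_apply, app_Rot, d1, hp, hb]
  simp only [Fin.sum_univ_three]
  ring

theorem inv_Rot (hR : R.transpose * R = 1) (w : Fin 3 → E → M2) :
    rot_Rot R.transpose (rot_Rot R w) = w := by
  funext i x a b
  have h : ∀ j, ∑ k, R k i * R k j = if i = j then 1 else 0 := fun j =>
    orth_Rot (R := R.transpose) hR i j
  simp only [app_Rot, Matrix.transpose_apply, Finset.mul_sum, ← mul_assoc]
  rw [Finset.sum_comm]
  simp only [← Finset.sum_mul, h, ite_mul, one_mul, zero_mul, Finset.sum_ite_eq, Finset.mem_univ,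
    if_true]

theorem deform_Rot (hR : R * R.transpose = 1) {W : ℝ → Fin 3 → E → M2} (h : Deform w W) :
    Deform (rot_Rot R w) fun t => rot_Rot R (W t) := by
  refine ⟨contDiff_pi.2 fun i => ?_, by rw [h.zero], fun t ht => hyp_Rot hR (h.hyp t ht),
    fun t ht => coh_Rot (h.coh t ht)⟩
  exact ContDiff.sum fun j _ => (contDiff_pi.1 h.smooth j).const_smul (R i j)

theorem ex_Rot (u : Fin 3 → ℝ) (hu : ∑ i, u i ^ 2 = 1) :
    ∃ R : Matrix (Fin 3) (Fin 3) ℝ, R * R.transpose = 1 ∧ ∀ j, R 0 j = u j := by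
  have hv : Orthonormal ℝ (({0} : Set (Fin 3)).domRestrict
      fun _ => (WithLp.toLp 2 u : EuclideanSpace ℝ (Fin 3))) := by
    rw [orthonormal_subsingleton_iff]
    intro i
    rw [Set.domRestrict_apply, EuclideanSpace.norm_eq]
    simp only [Real.norm_eq_abs, sq_abs, hu, Real.sqrt_one]
  obtain ⟨b, hb⟩ := hv.exists_orthonormalBasis_extension_of_card_eq (by simp)
  refine ⟨Matrix.of fun i j => b i j, ?_, fun j => ?_⟩
  · ext i j
    have := orthonormal_iff_ite.1 b.orthonormal i j
    rw [Matrix.mul_apply, Matrix.one_apply, ← this, PiLp.inner_apply]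
    refine Finset.sum_congr rfl fun k _ => ?_
    simp [mul_comm]
  · rw [Matrix.of_apply, hb 0 rfl]

theorem final {w : Fin 3 → E → M2} (h : Hyp w) (hn : Normalized w)
    (hf : ∃ (c : Fin 3 → ℝ) (f : E → ℝ), ∀ i x, w i x 2 3 = c i * f x) :
    ∃ W, Deform w W ∧ HK (W 1) := by
  obtain ⟨c, f, hf⟩ := hf
  have hne : ∀ x, (∑ i, c i ^ 2) * f x ≠ 0 := fun x h0 => by
    have hz : ∀ i, w i x 2 3 = 0 := fun i => by
      rw [hf]
      rcases mul_eq_zero.1 h0 with h1 | h1
      · have := (Finset.sum_eq_zero_iff_of_nonneg fun i _ => sq_nonneg (c i)).1 h1 i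
          (Finset.mem_univ i)
        rw [pow_eq_zero_iff two_ne_zero] at this
        rw [this, zero_mul]
      · rw [h1, mul_zero]
    exact alg_a23 ((pos3_iff fun i => w i x).1 (h.pos x)) (hz 1) (hz 2) (hz 0)
  have hg : ∀ x, ∑ i, c i * w i x 2 3 = (∑ i, c i ^ 2) * f x := fun x => by
    simp only [hf, Fin.sum_univ_three]
    ring
  have hc : Continuous fun x => ∑ i, c i * w i x 2 3 :=
    (SP.sum _ fun j _ => (sp_const (c j)).mul ((h.form j).sp 2 3)).smooth.continuous
  have hs := sign_int hc fun x => by rw [hg]; exact hne x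
  generalize (∫ y in Icc (0 : E) 1, ∑ i, c i * w i y 2 3) = σ at hs
  have hσ : σ ≠ 0 := by
    rintro rfl
    simpa using hs 0
  have hN : 0 < ∑ i, c i ^ 2 :=
    (Finset.sum_nonneg fun i _ => sq_nonneg (c i)).lt_of_ne' (left_ne_zero_of_mul (hne 0))
  have hq : 0 < σ ^ 2 * ∑ i, c i ^ 2 := by positivity
  obtain ⟨r, hr, hr2⟩ : ∃ r : ℝ, 0 < r ∧ r ^ 2 = σ ^ 2 * ∑ i, c i ^ 2 :=
    ⟨_, Real.sqrt_pos.2 hq, Real.sq_sqrt hq.le⟩
  obtain ⟨R, hR, h0⟩ := ex_Rot (fun i => σ / r * c i) (by
    simp only [mul_pow, ← Finset.mul_sum, div_pow]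
    rw [hr2, div_mul_eq_mul_div, div_self hq.ne'])
  have hR' : R.transpose * R = 1 := mul_eq_one_comm.1 hR
  have hz : ∀ i, i ≠ 0 → ∀ x, rot_Rot R w i x 2 3 = 0 := fun i hi x => by
    have h1 := orth_Rot hR i 0
    rw [if_neg hi] at h1
    refine mul_left_cancel₀ (div_ne_zero hσ hr.ne') ?_
    simp only [app_Rot, hf, h0, Fin.sum_univ_three] at h1 ⊢
    linear_combination f x * h1
  obtain ⟨W, hW, hK⟩ := core (hyp_Rot hR h) (norm_Rot hR h hn) (fun x => by
    have h1 := div_pos (hs x) hr
    simp only [app_Rot, h0, Fin.sum_univ_three] at h1 ⊢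
    refine h1.trans_eq ?_
    ring) (hz 1 (by decide)) (hz 2 (by decide))
  have h2 := deform_Rot (R := R.transpose) hR' hW
  rw [inv_Rot hR'] at h2
  exact ⟨_, h2, hk_Rot (R := R.transpose) hR' hK⟩

end

end Vale.Agent.P247
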