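import Mathlib

namespace Vale.Agent.P247

open MeasureTheory Set
open scoped ContDiff

noncomputable section

/-- The universal cover of the four-torus. -/
abbrev E : Type := Fin 4 → ℝ

/-- Components of a two-form at a point. -/
abbrev M2 : Type := Fin 4 → Fin 4 → ℝ

/-- Invariance under the integer lattice. -/
def Per {F : Type} (f : E → F) : Prop :=
  ∀ (x : E) (k : Fin 4 → ℤ), f (x + fun i => (k i : ℝ)) = f x

/-- Derivative in the coordinate direction `i`. -/
def pd (i : Fin 4) (f : E → ℝ) (x : E) : ℝ := fderiv ℝ f x (Pi.single i 1)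

/-- A smooth one-form on the torus. -/
structure IsForm1 (a : E → Fin 4 → ℝ) : Prop where
  smooth : ContDiff ℝ ∞ a
  per : Per a

/-- A smooth two-form on the torus. -/
structure IsForm2 (w : E → M2) : Prop where
  smooth : ContDiff ℝ ∞ w
  per : Per w
  skew : ∀ x i j, w x i j = -w x j i

/-- Exterior derivative of a one-form. -/
def d1 (a : E → Fin 4 → ℝ) (x : E) : M2 :=
  fun i j => pd i (fun y => a y j) x - pd j (fun y => a y i) x

/-- The exterior derivative of the two-form vanishes. -/
def Closed (w : E → M2) : Prop :=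
  ∀ x i j k, pd i (fun y => w y j k) x + pd j (fun y => w y k i) x + pd k (fun y => w y i j) x = 0

/-- The coefficient of the wedge product in front of the standard volume form. -/
def wedge (a b : M2) : ℝ :=
  a 0 1 * b 2 3 - a 0 2 * b 1 3 + a 0 3 * b 1 2 + a 1 2 * b 0 3 - a 1 3 * b 0 2 + a 2 3 * b 0 1

/-- Hypersymplectic structure. -/
structure Hyp (w : Fin 3 → E → M2) : Prop where
  form : ∀ i, IsForm2 (w i)
  closed : ∀ i, Closed (w i)
  pos : ∀ x, (Matrix.of fun i j => wedge (w i x) (w j x)).PosDef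

/-- The Gram matrix is the identity. -/
def Normalized (w : Fin 3 → E → M2) : Prop :=
  ∀ i j, ∫ x in Icc (0 : E) 1, wedge (w i x) (w j x) = if i = j then 1 else 0

/-- Hyperkaehler triple. -/
def HK (w : Fin 3 → E → M2) : Prop :=
  Hyp w ∧ ∃ μ : E → ℝ, ∀ x, 0 < μ x ∧ ∀ i j, wedge (w i x) (w j x) = if i = j then 2 * μ x else 0

/-- The two forms differ by an exact form. -/
def Cohom (w w' : E → M2) : Prop := ∃ a, IsForm1 a ∧ ∀ x, w' x = w x + d1 a x

/-- Cohomologous deformation. -/
structure Deform (w : Fin 3 → E → M2) (W : ℝ → Fin 3 → E → M2) : Prop where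
  smooth : ContDiff ℝ ∞ fun p : ℝ × E => fun i => W p.1 i p.2
  zero : W 0 = w
  hyp : ∀ t ∈ Icc (0 : ℝ) 1, Hyp (W t)
  coh : ∀ t ∈ Icc (0 : ℝ) 1, ∀ i, Cohom (w i) (W t i)

end

end Vale.Agent.P247
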